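import Mathlib
import Vale.Agent.P262.H395.Fib

/-!
# P262, DIST caps: flatness below every label, also along lines

`C` a convex set of fibre positions, `Bi`, `Bj` with `mix W p c ∈ Bj` for `p ∈ Bi`, `c ∈ C`.
With Maurey's inequality for `C` (or for the cylinder of `C` along a line direction) the weight
`exp (θ dist(x, Bj)^2)` is, below every label `u`, at least `exp (θ dist(u, Bi)^2)` and its fibre
average, even after taking suprema along lines, is at most `γ(C)⁻¹ exp (θ dist(u, Bi)^2)`.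
-/

set_option linter.all false

open MeasureTheory ProbabilityTheory Set Metric
open scoped ENNReal RealInnerProductSpace

namespace Vale.Agent.P262.H633

open Vale.Agent.P262.H395

variable {E : Type*} [NormedAddCommGroup E] [InnerProductSpace ℝ E] [FiniteDimensional ℝ E]
  [MeasurableSpace E] [BorelSpace E]

/-- Maurey's inequality for the set `C` -/
def MaureyAt (C : Set E) : Prop :=
  ∫⁻ z, ENNReal.ofReal (Real.exp (infDist z C ^ 2 / 4)) ∂stdGaussian E ≤ (stdGaussian E C)⁻¹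

/-- the flatness property of a pair of sets -/
def Flow (W : Submodule ℝ E) (Bi Bj C : Set E) : Prop := ∀ p ∈ Bi, ∀ c ∈ C, mix W p c ∈ Bj

lemma norm_mix_sub (W : Submodule ℝ E) (x z p c : E) :
    ‖mix W x z - mix W p c‖ ^ 2 ≤ ‖x - p‖ ^ 2 + ‖z - c‖ ^ 2 := by
  have e1 : mix W x z - mix W p c
      = W.starProjection (x - p) + ((z - c) - W.starProjection (z - c)) := by
    unfold mix
    simp only [map_sub]
    abel
  have h3 : ⟪W.starProjection (x - p), (z - c) - W.starProjection (z - c)⟫ = 0 := by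
    rw [inner_sub_right, Submodule.inner_starProjection_left_eq_right,
      Submodule.inner_starProjection_left_eq_right, proj_proj, sub_self]
  have h4 := norm_add_sq_real (W.starProjection (x - p)) ((z - c) - W.starProjection (z - c))
  rw [h3] at h4
  rw [e1, h4]
  have h5 : ‖W.starProjection (x - p)‖ ≤ ‖x - p‖ := Submodule.norm_starProjection_apply_le W _
  have h6 : ‖(z - c) - W.starProjection (z - c)‖ ≤ ‖z - c‖ := by
    have := Submodule.norm_starProjection_apply_le Wᗮ (z - c)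
    rwa [Submodule.starProjection_orthogonal_val] at this
  have h7 : ‖W.starProjection (x - p)‖ ^ 2 ≤ ‖x - p‖ ^ 2 := by gcongr
  have h8 : ‖(z - c) - W.starProjection (z - c)‖ ^ 2 ≤ ‖z - c‖ ^ 2 := by gcongr
  linarith

lemma exists_lt_infDist {s : Set E} (hs : s.Nonempty) (x : E) {ε : ℝ} (hε : 0 < ε) :
    ∃ y ∈ s, ‖x - y‖ ^ 2 < infDist x s ^ 2 + ε := by
  have h0 : 0 ≤ infDist x s := infDist_nonneg
  have h1 : infDist x s < Real.sqrt (infDist x s ^ 2 + ε) := by
    apply Real.lt_sqrt_of_sq_lt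
    linarith
  obtain ⟨y, hy, hlt⟩ := (infDist_lt_iff hs).mp h1
  refine ⟨y, hy, ?_⟩
  rw [dist_eq_norm] at hlt
  have h2 : ‖x - y‖ ^ 2 < Real.sqrt (infDist x s ^ 2 + ε) ^ 2 := by
    have := norm_nonneg (x - y)
    gcongr
  rwa [Real.sq_sqrt (by positivity)] at h2

/-- `dist(mix x z, Bj)^2 ≤ dist(x, Bi)^2 + dist(z, C)^2` -/
theorem infDist_mix {W : Submodule ℝ E} {Bi Bj C : Set E} (h : Flow W Bi Bj C)
    (hB : Bi.Nonempty) (hC : C.Nonempty) (x z : E) :
    infDist (mix W x z) Bj ^ 2 ≤ infDist x Bi ^ 2 + infDist z C ^ 2 := by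
  refine le_of_forall_pos_lt_add fun ε hε => ?_
  obtain ⟨p, hp, h1⟩ := exists_lt_infDist hB x (half_pos hε)
  obtain ⟨c, hc, h2⟩ := exists_lt_infDist hC z (half_pos hε)
  have h3 : infDist (mix W x z) Bj ≤ ‖mix W x z - mix W p c‖ := by
    rw [← dist_eq_norm]
    exact infDist_le_dist_of_mem (h p hp c hc)
  have h4 : infDist (mix W x z) Bj ^ 2 ≤ ‖mix W x z - mix W p c‖ ^ 2 := by
    have := infDist_nonneg (x := mix W x z) (s := Bj)
    gcongr
  have h5 := norm_mix_sub W x z p c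
  linarith

/-- remove the component along the unit vector `e` -/
noncomputable def off (e z : E) : E := z - ⟪e, z⟫ • e

/-- the cylinder of `C` in the direction `e` -/
def cyl (e : E) (C : Set E) : Set E := {z | off e z ∈ C}

lemma norm_off_sub {e : E} (he : ‖e‖ = 1) (z y : E) : ‖off e z - off e y‖ ≤ ‖z - y‖ := by
  have e1 : off e z - off e y = (z - y) - ⟪e, z - y⟫ • e := by
    unfold off
    rw [inner_sub_right, sub_smul]
    abel
  rw [e1]
  have h1 : ‖(z - y) - ⟪e, z - y⟫ • e‖ ^ 2 = ‖z - y‖ ^ 2 - ⟪e, z - y⟫ ^ 2 := by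
    rw [norm_sub_sq_real, real_inner_smul_right, norm_smul, he, mul_one, real_inner_comm,
      Real.norm_eq_abs, sq_abs]
    ring
  have h2 : ‖(z - y) - ⟪e, z - y⟫ • e‖ ^ 2 ≤ ‖z - y‖ ^ 2 := by
    rw [h1]
    nlinarith [sq_nonneg ⟪e, z - y⟫]
  exact (sq_le_sq₀ (norm_nonneg _) (norm_nonneg _)).mp h2

lemma infDist_off {e : E} (he : ‖e‖ = 1) {C : Set E} (hC : (cyl e C).Nonempty) (z : E) :
    infDist (off e z) C ≤ infDist z (cyl e C) := by
  refine le_of_forall_pos_lt_add fun ε hε => ?_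
  have h1 : infDist z (cyl e C) < infDist z (cyl e C) + ε := by linarith
  obtain ⟨y, hy, hlt⟩ := (infDist_lt_iff hC).mp h1
  calc infDist (off e z) C ≤ dist (off e z) (off e y) := infDist_le_dist_of_mem hy
    _ ≤ dist z y := by
        rw [dist_eq_norm, dist_eq_norm]
        exact norm_off_sub he z y
    _ < _ := hlt

lemma off_mix {W : Submodule ℝ E} {e : E} (he : e ∈ Wᗮ) (x z : E) :
    off e (mix W x z) = mix W x (off e z) := by
  have h0 : ∀ y, ⟪e, W.starProjection y⟫ = 0 := fun y =>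
    Submodule.inner_left_of_mem_orthogonal (Submodule.starProjection_apply_mem W y) he
  have h1 : ⟪e, mix W x z⟫ = ⟪e, z⟫ := by
    unfold mix
    rw [inner_add_right, inner_sub_right, h0, h0]
    ring
  unfold off
  rw [h1]
  unfold mix
  rw [map_sub, map_smul, proj_eq_zero he, smul_zero, sub_zero]
  abel

lemma mix_add_smul {W : Submodule ℝ E} {e : E} (he : e ∈ Wᗮ) (x z : E) (s : ℝ) :
    mix W x z + s • e = mix W x (z + s • e) := by
  unfold mix
  rw [map_add, map_smul, proj_eq_zero he, smul_zero, add_zero]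
  abel

/-- supremum of a weight along the line through `x` in the direction `e`, with the Gaussian factor -/
noncomputable def lsup (e : E) (w : E → ℝ≥0∞) (x : E) : ℝ≥0∞ :=
  ⨆ s : ℝ, w (off e x + s • e) * ENNReal.ofReal (Real.exp (-(s ^ 2 / 2)))

/-- the DIST weight -/
noncomputable def dw (θ : ℝ) (B : Set E) (x : E) : ℝ≥0∞ :=
  ENNReal.ofReal (Real.exp (θ * infDist x B ^ 2))

lemma measurable_dw (θ : ℝ) (B : Set E) : Measurable (dw (E := E) θ B) := by
  unfold dw
  fun_prop

theorem lsup_mix_le {W : Submodule ℝ E} {Bi Bj C : Set E} (h : Flow W Bi Bj C)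
    (hB : Bi.Nonempty) {e : E} (he1 : ‖e‖ = 1) (he : e ∈ Wᗮ) (hC : (cyl e C).Nonempty) {θ : ℝ}
    (hθ : 0 ≤ θ) (hθ1 : θ ≤ 1 / 8) (x z : E) :
    lsup e (dw θ Bj) (mix W x z) ≤ dw θ Bi x
      * ENNReal.ofReal (Real.exp (infDist z (cyl e C) ^ 2 / 6)) := by
  unfold lsup
  refine iSup_le fun s => ?_
  rw [off_mix he, mix_add_smul he]
  unfold dw
  rw [← ENNReal.ofReal_mul (Real.exp_nonneg _), ← ENNReal.ofReal_mul (Real.exp_nonneg _),
    ← Real.exp_add, ← Real.exp_add]
  apply ENNReal.ofReal_le_ofReal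
  apply Real.exp_le_exp.mpr
  have hC' : C.Nonempty := by
    obtain ⟨y, hy⟩ := hC
    exact ⟨_, hy⟩
  have h1 := infDist_mix h hB hC' x (off e z + s • e)
  have h2 : infDist (off e z + s • e) C ≤ infDist z (cyl e C) + |s| := by
    have h3 := infDist_le_infDist_add_dist (s := C) (x := off e z + s • e) (y := off e z)
    have h4 : dist (off e z + s • e) (off e z) = |s| := by
      rw [dist_eq_norm, add_sub_cancel_left, norm_smul, he1, mul_one, Real.norm_eq_abs]
    have h5 := infDist_off he1 hC z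
    linarith
  set a := infDist z (cyl e C) with ha
  have ha0 : 0 ≤ a := infDist_nonneg
  have hb0 : 0 ≤ infDist (off e z + s • e) C := infDist_nonneg
  have h6 : infDist (off e z + s • e) C ^ 2 ≤ 4 / 3 * a ^ 2 + 4 * s ^ 2 := by
    have h7 : infDist (off e z + s • e) C ^ 2 ≤ (a + |s|) ^ 2 := by gcongr
    have h8 : |s| ^ 2 = s ^ 2 := sq_abs s
    nlinarith [sq_nonneg (a - 3 * |s|)]
  have h9 : θ * infDist (mix W x (off e z + s • e)) Bj ^ 2
      ≤ θ * infDist x Bi ^ 2 + θ * (4 / 3 * a ^ 2 + 4 * s ^ 2) := by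
    rw [← mul_add]
    apply mul_le_mul_of_nonneg_left _ hθ
    linarith
  have h10 : θ * (4 / 3 * a ^ 2 + 4 * s ^ 2) ≤ 1 / 8 * (4 / 3 * a ^ 2 + 4 * s ^ 2) := by
    apply mul_le_mul_of_nonneg_right hθ1
    positivity
  nlinarith [h9, h10]

/-- **flatness along lines** -/
theorem fib_lsup_le {W : Submodule ℝ E} {Bi Bj C : Set E} (h : Flow W Bi Bj C)
    (hB : Bi.Nonempty) {e : E} (he1 : ‖e‖ = 1) (he : e ∈ Wᗮ) (hC : (cyl e C).Nonempty)
    (hM : MaureyAt (cyl e C)) {θ : ℝ} (hθ : 0 ≤ θ) (hθ1 : θ ≤ 1 / 8) (x : E) :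
    fib W (lsup e (dw θ Bj)) x ≤ (stdGaussian E (cyl e C))⁻¹ * dw θ Bi x := by
  calc fib W (lsup e (dw θ Bj)) x
      ≤ ∫⁻ z, dw θ Bi x * ENNReal.ofReal (Real.exp (infDist z (cyl e C) ^ 2 / 4))
          ∂stdGaussian E := by
        unfold fib
        refine lintegral_mono fun z => (lsup_mix_le h hB he1 he hC hθ hθ1 x z).trans ?_
        gcongr
        norm_num
    _ = dw θ Bi x * ∫⁻ z, ENNReal.ofReal (Real.exp (infDist z (cyl e C) ^ 2 / 4))
          ∂stdGaussian E := by
        rw [lintegral_const_mul]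
        fun_prop
    _ ≤ dw θ Bi x * (stdGaussian E (cyl e C))⁻¹ := by
        gcongr
        exact hM
    _ = _ := mul_comm _ _

/-- flatness: upper bound of the fibre average -/
theorem fib_dw_le {W : Submodule ℝ E} {Bi Bj C : Set E} (h : Flow W Bi Bj C)
    (hB : Bi.Nonempty) (hC : C.Nonempty) (hM : MaureyAt C) {θ : ℝ} (hθ : 0 ≤ θ)
    (hθ1 : θ ≤ 1 / 4) (x : E) :
    fib W (dw θ Bj) x ≤ (stdGaussian E C)⁻¹ * dw θ Bi x := by
  calc fib W (dw θ Bj) x
      ≤ ∫⁻ z, dw θ Bi x * ENNReal.ofReal (Real.exp (infDist z C ^ 2 / 4)) ∂stdGaussian E := by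
        unfold fib
        refine lintegral_mono fun z => ?_
        unfold dw
        rw [← ENNReal.ofReal_mul (Real.exp_nonneg _), ← Real.exp_add]
        apply ENNReal.ofReal_le_ofReal
        apply Real.exp_le_exp.mpr
        have h1 := infDist_mix h hB hC x z
        have h2 : θ * infDist (mix W x z) Bj ^ 2
            ≤ θ * infDist x Bi ^ 2 + θ * infDist z C ^ 2 := by
          rw [← mul_add]
          exact mul_le_mul_of_nonneg_left h1 hθ
        have h3 : θ * infDist z C ^ 2 ≤ 1 / 4 * infDist z C ^ 2 :=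
          mul_le_mul_of_nonneg_right hθ1 (by positivity)
        linarith
    _ = dw θ Bi x * ∫⁻ z, ENNReal.ofReal (Real.exp (infDist z C ^ 2 / 4)) ∂stdGaussian E := by
        rw [lintegral_const_mul]
        fun_prop
    _ ≤ dw θ Bi x * (stdGaussian E C)⁻¹ := by
        gcongr
        exact hM
    _ = _ := mul_comm _ _

/-- the weight increases when levels are added -/
lemma dw_mono {θ : ℝ} (hθ : 0 ≤ θ) {Bi Bj : Set E} (hB : Bj ⊆ Bi) (hj : Bj.Nonempty) (x : E) :
    dw θ Bi x ≤ dw θ Bj x := by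
  unfold dw
  apply ENNReal.ofReal_le_ofReal
  apply Real.exp_le_exp.mpr
  have h1 := infDist_le_infDist_of_subset (x := x) hB hj
  have h2 := infDist_nonneg (x := x) (s := Bi)
  gcongr

/-- `B` is a cylinder over `W` -/
def Cyl (W : Submodule ℝ E) (B : Set E) : Prop := ∀ x ∈ B, ∀ w ∈ Wᗮ, x + w ∈ B

lemma infDist_cyl {W : Submodule ℝ E} {B : Set E} (h : Cyl W B) (hB : B.Nonempty) (x w : E)
    (hw : w ∈ Wᗮ) : infDist (x + w) B = infDist x B := by
  have key : ∀ x w : E, w ∈ Wᗮ → infDist (x + w) B ≤ infDist x B := by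
    intro x w hw
    refine le_of_forall_pos_lt_add fun ε hε => ?_
    have h1 : infDist x B < infDist x B + ε := by linarith
    obtain ⟨y, hy, hlt⟩ := (infDist_lt_iff hB).mp h1
    calc infDist (x + w) B ≤ dist (x + w) (y + w) := infDist_le_dist_of_mem (h y hy w hw)
      _ = dist x y := by simp
      _ < _ := hlt
  refine le_antisymm (key x w hw) ?_
  have := key (x + w) (-w) (Wᗮ.neg_mem hw)
  rwa [add_neg_cancel_right] at this

lemma inv_dw {W : Submodule ℝ E} {B : Set E} (h : Cyl W B) (hB : B.Nonempty) (θ : ℝ) :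
    Inv W (dw θ B) := by
  intro x w hw
  unfold dw
  rw [infDist_cyl h hB x w hw]

/-- weighted health transfer, lower bound -/
theorem le_fib_dw {W : Submodule ℝ E} {Bi Bj : Set E} {θ : ℝ} (hθ : 0 ≤ θ) (hB : Bj ⊆ Bi)
    (hj : Bj.Nonempty) (hi : Cyl W Bi) {f : E → ℝ≥0∞} (hf : Measurable f) (x : E) :
    dw θ Bi x * fib W f x ≤ fib W (fun y => dw θ Bj y * f y) x := by
  rw [← fib_mul (inv_dw hi (hj.mono hB) θ) hf x]
  exact fib_mono (fun y => by gcongr; exact dw_mono hθ hB hj y) x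

end Vale.Agent.P262.H633
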