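import Vale.Agent.P262.H962.PCap
import Vale.Agent.P262.H431.Per3

/-!
# P262: flatness along lines of DIST caps, also with a slab factor

`FlatAt` (H431) for `dw a B` and for `dw a B * dw c {|⟪b,x⟫| ≤ h}`, `a + c ≤ 1/8`, below every label
of `W`; directions `e, b ∈ Wᗮ` arbitrary unit vectors.
-/

set_option linter.all false

open MeasureTheory ProbabilityTheory Set Metric
open scoped ENNReal RealInnerProductSpace

namespace Vale.Agent.P262.H633

open Vale.Agent.P262.H395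

variable {E : Type*} [NormedAddCommGroup E] [InnerProductSpace ℝ E] [FiniteDimensional ℝ E]
  [MeasurableSpace E] [BorelSpace E]

/-- the slab `{|⟪b,x⟫| ≤ h}` -/
def slab (b : E) (h : ℝ) : Set E := {x | |⟪b, x⟫| ≤ h}

lemma isClosed_slab (b : E) (h : ℝ) : IsClosed (slab b h) := by
  unfold slab
  exact isClosed_le (by fun_prop) continuous_const

lemma zero_mem_slab (b : E) {h : ℝ} (hh : 0 ≤ h) : (0 : E) ∈ slab b h := by
  show |⟪b, (0 : E)⟫| ≤ h
  simpa using hh

lemma slab_add {b : E} {h : ℝ} {x v : E} (hv : ⟪b, v⟫ = 0) : x + v ∈ slab b h ↔ x ∈ slab b h := by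
  unfold slab
  simp only [mem_setOf_eq, inner_add_right, hv, add_zero]

lemma infDist_slab_add {b : E} {h : ℝ} (hh : 0 ≤ h) {v : E} (hv : ⟪b, v⟫ = 0) (x : E) :
    infDist (x + v) (slab b h) = infDist x (slab b h) := by
  have hne : (slab b h).Nonempty := ⟨0, zero_mem_slab b hh⟩
  have key : ∀ (x v : E), ⟪b, v⟫ = 0 → infDist (x + v) (slab b h) ≤ infDist x (slab b h) := by
    intro x v hv
    refine le_of_forall_pos_lt_add fun ε hε => ?_
    have h1 : infDist x (slab b h) < infDist x (slab b h) + ε := by linarith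
    obtain ⟨y, hy, hlt⟩ := (infDist_lt_iff hne).mp h1
    calc infDist (x + v) (slab b h) ≤ dist (x + v) (y + v) :=
          infDist_le_dist_of_mem ((slab_add hv).mpr hy)
      _ = dist x y := by simp
      _ < _ := hlt
  refine le_antisymm (key x v hv) ?_
  have := key (x + v) (-v) (by rw [inner_neg_right, hv, neg_zero])
  rwa [add_neg_cancel_right] at this

lemma infDist_slab_mix {W : Submodule ℝ E} {b : E} (hb : b ∈ Wᗮ) {h : ℝ} (hh : 0 ≤ h) (x z : E) :
    infDist (mix W x z) (slab b h) = infDist z (slab b h) := by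
  have e1 : mix W x z = z + (W.starProjection x - W.starProjection z) := by
    unfold mix
    abel
  rw [e1]
  apply infDist_slab_add hh
  exact Submodule.inner_left_of_mem_orthogonal
    (Submodule.sub_mem _ (Submodule.starProjection_apply_mem W x)
      (Submodule.starProjection_apply_mem W z)) hb

/-- the estimate on one line -/
lemma line_core {e : E} (he1 : ‖e‖ = 1) {C : Set E} (hC : (cyl e C).Nonempty) {θ : ℝ}
    (hθ : 0 ≤ θ) (hθ1 : θ ≤ 1 / 8) (z : E) (s : ℝ) :
    θ * infDist (off e z + s • e) C ^ 2 - s ^ 2 / 2 ≤ infDist z (cyl e C) ^ 2 / 6 := by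
  have h2 : infDist (off e z + s • e) C ≤ infDist z (cyl e C) + |s| := by
    have h3 := infDist_le_infDist_add_dist (s := C) (x := off e z + s • e) (y := off e z)
    have h4 : dist (off e z + s • e) (off e z) = |s| := by
      rw [dist_eq_norm, add_sub_cancel_left, norm_smul, he1, mul_one, Real.norm_eq_abs]
    have h5 := infDist_off he1 hC z
    linarith
  set a := infDist z (cyl e C) with ha
  have ha0 : 0 ≤ a := infDist_nonneg
  have hb0 : 0 ≤ infDist (off e z + s • e) C := infDist_nonneg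
  have h6 : infDist (off e z + s • e) C ^ 2 ≤ 4 / 3 * a ^ 2 + 4 * s ^ 2 := by
    have h7 : infDist (off e z + s • e) C ^ 2 ≤ (a + |s|) ^ 2 := by gcongr
    have h8 : |s| ^ 2 = s ^ 2 := sq_abs s
    nlinarith [sq_nonneg (a - 3 * |s|)]
  have h10 : θ * infDist (off e z + s • e) C ^ 2 ≤ 1 / 8 * (4 / 3 * a ^ 2 + 4 * s ^ 2) := by
    calc θ * infDist (off e z + s • e) C ^ 2 ≤ 1 / 8 * infDist (off e z + s • e) C ^ 2 :=
          mul_le_mul_of_nonneg_right hθ1 (by positivity)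
      _ ≤ _ := by linarith
  linarith

lemma ML_eq (w : E → ℝ≥0∞) (e x : E) : H431.ML w e x = lsup e w x := by
  unfold H431.ML lsup
  refine iSup_congr fun t => ?_
  have e1 : H431.pt e x t = off e x + t • e := by
    unfold H431.pt off
    module
  rw [e1, mul_comm]
  unfold H493.ee
  congr 3
  ring

/-- general form: a weight which is at most `ω * exp (θ dist(z,C)^2)` at `mix W u z` is flat along
the lines -/
theorem flatAt_of_le {W : Submodule ℝ E} {w : E → ℝ≥0∞} {e : E} (he1 : ‖e‖ = 1) (he : e ∈ Wᗮ)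
    {u : E} {ω : ℝ≥0∞} (hω : ω ≠ ⊤) (hlow : ∀ z, ω ≤ w (mix W u z)) {C : Set E} {θ : ℝ}
    (hθ : 0 ≤ θ) (hθ1 : θ ≤ 1 / 8)
    (hup : ∀ z, w (mix W u z) ≤ ω * ENNReal.ofReal (Real.exp (θ * infDist z C ^ 2)))
    (hCm : MeasurableSet (cyl e C))
    (hγ : ENNReal.ofReal (15 / 16) ≤ stdGaussian E (cyl e C)) : H431.FlatAt w e W u := by
  have hne : (cyl e C).Nonempty := by
    by_contra hcon
    rw [not_nonempty_iff_eq_empty] at hcon
    rw [hcon, measure_empty, nonpos_iff_eq_zero, ENNReal.ofReal_eq_zero] at hγ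
    linarith
  refine ⟨ω, hω, hlow, ?_⟩
  have h1 : ∀ z, H431.ML w e (mix W u z) ≤
      ω * ENNReal.ofReal (Real.exp (1 / 4 * infDist z (cyl e C) ^ 2)) := by
    intro z
    rw [ML_eq]
    unfold lsup
    refine iSup_le fun s => ?_
    rw [off_mix he, mix_add_smul he]
    calc w (mix W u (off e z + s • e)) * ENNReal.ofReal (Real.exp (-(s ^ 2 / 2)))
        ≤ (ω * ENNReal.ofReal (Real.exp (θ * infDist (off e z + s • e) C ^ 2))) *
            ENNReal.ofReal (Real.exp (-(s ^ 2 / 2))) := by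
          gcongr
          exact hup _
      _ = ω * ENNReal.ofReal (Real.exp (θ * infDist (off e z + s • e) C ^ 2 - s ^ 2 / 2)) := by
          rw [mul_assoc, ← ENNReal.ofReal_mul (Real.exp_nonneg _), ← Real.exp_add]
          congr 3
      _ ≤ _ := by
          gcongr
          have := line_core he1 hne hθ hθ1 z s
          have h3 := sq_nonneg (infDist z (cyl e C))
          linarith
  calc fib W (H431.ML w e) u
      ≤ ∫⁻ z, ω * ENNReal.ofReal (Real.exp (1 / 4 * infDist z (cyl e C) ^ 2))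
          ∂stdGaussian E := by
        unfold fib
        exact lintegral_mono h1
    _ = ω * ∫⁻ z, H606.dw (1 / 4) (cyl e C) z ∂stdGaussian E := by
        rw [lintegral_const_mul _ (by fun_prop)]
        rfl
    _ ≤ ω * (stdGaussian E (cyl e C))⁻¹ := by
        gcongr
        exact H606.lintegral_dw_le hCm (by norm_num) le_rfl
    _ ≤ ω * ENNReal.ofReal (16 / 15) := by
        gcongr
        rw [ENNReal.inv_le_iff_inv_le, ← ENNReal.ofReal_inv_of_pos (by norm_num)]
        refine le_trans (ENNReal.ofReal_le_ofReal (by norm_num)) hγ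
    _ = _ := mul_comm _ _

variable {ε : ℝ} {W : Submodule ℝ E} {B P C : Set E}

lemma measurableSet_cyl (e : E) {C : Set E} (hC : IsClosed C) : MeasurableSet (cyl e C) := by
  refine (hC.preimage ?_).measurableSet
  unfold off
  fun_prop

/-- **DIST caps are flat along lines** -/
theorem flatAt_dw (h : H606.FlatD ε W B P C) (hε : ε < 1) (hne : B.Nonempty) {e : E}
    (he1 : ‖e‖ = 1) (he : e ∈ Wᗮ) {a : ℝ} (ha0 : 0 ≤ a) (ha : a ≤ 1 / 8)
    (hγ : ENNReal.ofReal (15 / 16) ≤ stdGaussian E (cyl e C)) (u : E) :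
    H431.FlatAt (H606.dw a B) e W u :=
  flatAt_of_le he1 he (H606.dw_ne_top a P u) (fun z => h.le_dw_mix hne ha0 u z) ha0 ha
    (fun z => h.dw_mix_le hε hne ha0 u z) (measurableSet_cyl e h.clC) hγ

/-- **DIST caps with a slab factor are flat along lines** -/
theorem flatAt_dw_slab (h : H606.FlatD ε W B P C) (hε : ε < 1) (hne : B.Nonempty) {e b : E}
    (he1 : ‖e‖ = 1) (he : e ∈ Wᗮ) (hb : b ∈ Wᗮ) {a c k : ℝ} (hk : 0 ≤ k) (ha0 : 0 ≤ a)
    (hc0 : 0 ≤ c) (hac : a + c ≤ 1 / 8)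
    (hγ : ENNReal.ofReal (15 / 16) ≤ stdGaussian E (cyl e (C ∩ slab b k))) (u : E) :
    H431.FlatAt (fun x => H606.dw a B x * H606.dw c (slab b k) x) e W u := by
  have hCS : (C ∩ slab b k).Nonempty := by
    by_contra hcon
    rw [not_nonempty_iff_eq_empty] at hcon
    have e0 : cyl e (C ∩ slab b k) = ∅ := by
      rw [hcon]
      rfl
    rw [e0, measure_empty, nonpos_iff_eq_zero, ENNReal.ofReal_eq_zero] at hγ
    linarith
  refine flatAt_of_le he1 he (H606.dw_ne_top a P u) (fun z => ?_) (by positivity) hac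
    (fun z => ?_) (measurableSet_cyl e (h.clC.inter (isClosed_slab b k))) hγ
  · calc H606.dw a P u = H606.dw a P u * 1 := (mul_one _).symm
      _ ≤ _ := mul_le_mul' (h.le_dw_mix hne ha0 u z) (H606.one_le_dw hc0 _)
  · have h1 := h.dw_mix_le hε hne ha0 u z
    have h2 : H606.dw c (slab b k) (mix W u z) = H606.dw c (slab b k) z := by
      unfold H606.dw
      rw [infDist_slab_mix hb hk]
    show H606.dw a B (mix W u z) * H606.dw c (slab b k) (mix W u z) ≤ _
    rw [h2]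
    have h3 : H606.dw a C z ≤ ENNReal.ofReal (Real.exp (a * infDist z (C ∩ slab b k) ^ 2)) :=
      H606.dw_anti ha0 inter_subset_left hCS z
    have h4 : H606.dw c (slab b k) z ≤
        ENNReal.ofReal (Real.exp (c * infDist z (C ∩ slab b k) ^ 2)) :=
      H606.dw_anti hc0 inter_subset_right hCS z
    calc H606.dw a B (mix W u z) * H606.dw c (slab b k) z
        ≤ (H606.dw a P u * ENNReal.ofReal (Real.exp (a * infDist z (C ∩ slab b k) ^ 2))) *
          ENNReal.ofReal (Real.exp (c * infDist z (C ∩ slab b k) ^ 2)) := by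
          gcongr
          exact h1.trans (by gcongr)
      _ = _ := by
          rw [mul_assoc, ← ENNReal.ofReal_mul (Real.exp_nonneg _), ← Real.exp_add]
          congr 3
          ring

/-! ### measure of the cylinders -/

/-- Gaussian tail of a linear form of norm at most one -/
lemma lin_tail {b : E} (hb : ‖b‖ ≤ 1) {k : ℝ} (hk : 0 ≤ k) :
    stdGaussian E {z | k < |⟪b, z⟫|} ≤
      ENNReal.ofReal (Real.sqrt 2 * Real.exp (-(k ^ 2 / 4))) := by
  by_cases h0 : b = 0
  · have : {z : E | k < |⟪b, z⟫|} = ∅ := by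
      ext z
      simp only [mem_setOf_eq, mem_empty_iff_false, iff_false, not_lt, h0, inner_zero_left,
        abs_zero]
      exact hk
    rw [this, measure_empty]
    exact bot_le
  · have h1 := H962.chi_tail (E := E) (ℝ ∙ b) (q := k ^ 2)
    rw [finrank_span_singleton h0, pow_one] at h1
    refine le_trans (measure_mono fun z hz => ?_) h1
    simp only [Nat.cast_one, mul_one, mem_setOf_eq] at hz ⊢
    have h2 : ⟪b, z⟫ = ⟪b, (ℝ ∙ b).starProjection z⟫ := by
      rw [← Submodule.inner_starProjection_left_eq_right,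
        Submodule.starProjection_eq_self_iff.mpr (Submodule.mem_span_singleton_self b)]
    have h3 : |⟪b, z⟫| ≤ ‖(ℝ ∙ b).starProjection z‖ := by
      rw [h2]
      calc |⟪b, (ℝ ∙ b).starProjection z⟫| ≤ ‖b‖ * ‖(ℝ ∙ b).starProjection z‖ :=
            abs_real_inner_le_norm _ _
        _ ≤ 1 * ‖(ℝ ∙ b).starProjection z‖ := by gcongr
        _ = _ := one_mul _
    have h4 : k < ‖(ℝ ∙ b).starProjection z‖ := lt_of_lt_of_le hz h3
    gcongr

lemma le_measure_cyl_slab {e b : E} (he1 : ‖e‖ = 1) (hb1 : ‖b‖ ≤ 1) {k ε₁ ε₂ : ℝ} (hk : 0 ≤ k)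
    (h1 : ENNReal.ofReal (1 - ε₁) ≤ stdGaussian E (cyl e C)) (hε1 : ε₁ ≤ 1)
    (h2 : Real.sqrt 2 * Real.exp (-(k ^ 2 / 4)) ≤ ε₂) :
    ENNReal.ofReal (1 - ε₁ - ε₂) ≤ stdGaussian E (cyl e (C ∩ slab b k)) := by
  have hε2 : 0 ≤ ε₂ := le_trans (by positivity) h2
  have hb' : ‖b - ⟪b, e⟫ • e‖ ≤ 1 := by
    have e2 : ‖b - ⟪b, e⟫ • e‖ ^ 2 = ‖b‖ ^ 2 - ⟪b, e⟫ ^ 2 := by
      rw [norm_sub_sq_real, real_inner_smul_right, norm_smul, he1, mul_one,
        Real.norm_eq_abs, sq_abs]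
      ring
    have e3 : ‖b - ⟪b, e⟫ • e‖ ^ 2 ≤ 1 := by
      rw [e2]
      have := norm_nonneg b
      nlinarith [sq_nonneg ⟪b, e⟫]
    have := norm_nonneg (b - ⟪b, e⟫ • e)
    nlinarith
  have h3 := lin_tail hb' hk
  have hsub : cyl e C ⊆ cyl e (C ∩ slab b k) ∪ {z | k < |⟪b - ⟪b, e⟫ • e, z⟫|} := by
    intro z hz
    by_cases h4 : k < |⟪b - ⟪b, e⟫ • e, z⟫|
    · exact Or.inr h4
    · left
      refine ⟨hz, ?_⟩
      show |⟪b, off e z⟫| ≤ k
      have e4 : ⟪b, off e z⟫ = ⟪b - ⟪b, e⟫ • e, z⟫ := by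
        unfold off
        rw [inner_sub_right, real_inner_smul_right, inner_sub_left, real_inner_smul_left]
        ring
      rw [e4]
      exact not_lt.mp h4
  have h5 : ENNReal.ofReal (1 - ε₁) ≤ stdGaussian E (cyl e (C ∩ slab b k)) +
      ENNReal.ofReal ε₂ := by
    calc _ ≤ stdGaussian E (cyl e C) := h1
      _ ≤ _ := measure_mono hsub
      _ ≤ _ := measure_union_le _ _
      _ ≤ _ := by
        gcongr
        exact h3.trans (ENNReal.ofReal_le_ofReal h2)
  rw [ENNReal.ofReal_sub _ hε2]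
  exact tsub_le_iff_right.mpr h5

/-- `exp(-25/4) * √2 ≤ 1/400` -/
lemma exp_tail_bound {x : ℝ} (hx : 25 / 4 ≤ x) : Real.sqrt 2 * Real.exp (-x) ≤ 1 / 300 := by
  have h1 : Real.sqrt 2 ≤ 3 / 2 := by
    rw [show (3 / 2 : ℝ) = Real.sqrt ((3 / 2) ^ 2) by rw [Real.sqrt_sq (by norm_num)]]
    exact Real.sqrt_le_sqrt (by norm_num)
  have h2 : Real.exp (-x) ≤ Real.exp (-(25 / 4)) := Real.exp_le_exp.mpr (by linarith)
  have h3 : Real.exp (-(25 / 4)) ≤ 1 / 450 := by
    have h4 : (450 : ℝ) ≤ Real.exp (25 / 4) := by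
      have h5 : Real.exp (25 / 4) = Real.exp 1 ^ 6 * Real.exp (1 / 4) := by
        rw [← Real.exp_nat_mul, ← Real.exp_add]
        norm_num
      rw [h5]
      have h6 := Real.exp_one_gt_d9
      have h7 := Real.add_one_le_exp (1 / 4 : ℝ)
      have h8 : (2.718 : ℝ) ^ 6 ≤ Real.exp 1 ^ 6 := by
        have : (2.718 : ℝ) ≤ Real.exp 1 := by linarith
        gcongr
      have h9 : (2.718 : ℝ) ^ 6 * (5 / 4) ≤ Real.exp 1 ^ 6 * Real.exp (1 / 4) := by
        apply mul_le_mul h8 (by linarith) (by norm_num) (by positivity)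
      refine le_trans (by norm_num) h9
    rw [Real.exp_neg, one_div]
    exact inv_anti₀ (by norm_num) h4
  have h10 := Real.sqrt_nonneg 2
  calc Real.sqrt 2 * Real.exp (-x) ≤ 3 / 2 * (1 / 450) := by
        apply mul_le_mul h1 (h2.trans h3) (Real.exp_nonneg _) (by norm_num)
    _ = _ := by norm_num

/-- **prefix-ball caps (`q ≥ 100`) times a slab factor (`k ≥ 5`) are flat along lines** -/
theorem flatAt_PB {l l' : List (Submodule ℝ E)} {q : ℝ} (hq : 100 ≤ q) (h1 : ∀ V ∈ l, V ≤ W)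
    (hWl : W ∈ l ∨ W = ⊥) (hs : l'.Pairwise (· < ·)) (h2 : ∀ V ∈ l', W < V) {e b : E}
    (he1 : ‖e‖ = 1) (he : e ∈ Wᗮ) (hb1 : ‖b‖ ≤ 1) (hb : b ∈ Wᗮ) {a c k : ℝ} (hk : 5 ≤ k)
    (ha0 : 0 ≤ a) (hc0 : 0 ≤ c) (hac : a + c ≤ 1 / 8) (u : E) :
    H431.FlatAt (fun x => H606.dw a (H962.PB (l ++ l') q) x * H606.dw c (slab b k) x) e W u := by
  have hb4 : Real.sqrt 2 * Real.exp (-(q / 4)) ≤ 1 / 300 := exp_tail_bound (by linarith)
  have hb16 : Real.sqrt 2 * Real.exp (-(q / 16)) ≤ 1 / 300 := exp_tail_bound (by linarith)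
  have hbk : Real.sqrt 2 * Real.exp (-(k ^ 2 / 4)) ≤ 1 / 300 := exp_tail_bound (by nlinarith)
  have hF := H962.flatD_PB (q := q) (ε := 1 / 100) (by linarith) (by norm_num) h1 hWl hs h2
  have hc := H962.le_measure_cyl_CB (W := W) (q := q) (ε := 1 / 100) (by linarith) (by norm_num) hs h2
    he1 he
  refine flatAt_dw_slab hF (by norm_num) (H962.PB_nonempty _ (by linarith)) he1 he hb
    (by linarith) ha0 hc0 hac ?_ u
  refine le_trans (ENNReal.ofReal_le_ofReal ?_) (le_measure_cyl_slab he1 hb1 (by linarith) hc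
    (by norm_num) hbk)
  norm_num

theorem flatAt_PB' {l l' : List (Submodule ℝ E)} {q : ℝ} (hq : 100 ≤ q) (h1 : ∀ V ∈ l, V ≤ W)
    (hWl : W ∈ l ∨ W = ⊥) (hs : l'.Pairwise (· < ·)) (h2 : ∀ V ∈ l', W < V) {e : E}
    (he1 : ‖e‖ = 1) (he : e ∈ Wᗮ) {a : ℝ} (ha0 : 0 ≤ a) (ha : a ≤ 1 / 8) (u : E) :
    H431.FlatAt (H606.dw a (H962.PB (l ++ l') q)) e W u := by
  have hb4 : Real.sqrt 2 * Real.exp (-(q / 4)) ≤ 1 / 300 := exp_tail_bound (by linarith)
  have hb16 : Real.sqrt 2 * Real.exp (-(q / 16)) ≤ 1 / 300 := exp_tail_bound (by linarith)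
  have hF := H962.flatD_PB (q := q) (ε := 1 / 100) (by linarith) (by norm_num) h1 hWl hs h2
  have hc := H962.le_measure_cyl_CB (W := W) (q := q) (ε := 1 / 100) (by linarith) (by norm_num) hs h2
    he1 he
  refine flatAt_dw hF (by norm_num) (H962.PB_nonempty _ (by linarith)) he1 he ha0 ha ?_ u
  refine le_trans (ENNReal.ofReal_le_ofReal ?_) hc
  norm_num

/-- scaling a flat weight by a constant -/
theorem flatAt_const_mul {w : E → ℝ≥0∞} {e u : E} (hwm : Measurable (H431.ML w e))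
    (h : H431.FlatAt w e W u) {c : ℝ≥0∞} (hc : c ≠ ⊤) : H431.FlatAt (fun x => c * w x) e W u := by
  obtain ⟨ω, h1, h2, h3⟩ := h
  refine ⟨c * ω, ENNReal.mul_ne_top hc h1, fun z => mul_le_mul' le_rfl (h2 z), ?_⟩
  have e1 : H431.ML (fun x => c * w x) e = fun x => c * H431.ML w e x := by
    funext x
    unfold H431.ML
    rw [ENNReal.mul_iSup]
    refine iSup_congr fun t => ?_
    ring
  rw [e1]
  have e2 : fib W (fun x => c * H431.ML w e x) u = c * fib W (H431.ML w e) u := by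
    rw [← fib_mul (inv_const W c) hwm]
  rw [e2]
  calc c * fib W (H431.ML w e) u ≤ c * (ENNReal.ofReal (16 / 15) * ω) := by gcongr
    _ = _ := by ring

/-- the slab factor dominates the moments: `1 + |⟪b,x⟫| ≤ (k + 3 + 1/c) exp (c dist(x, slab)^2)` -/
theorem one_add_le_slab {b : E} (hb : ‖b‖ ≤ 1) {k c : ℝ} (hk : 0 ≤ k) (hc : 0 < c) (x : E) :
    1 + |⟪b, x⟫| ≤ (k + 2 + 1 / c) * Real.exp (c * infDist x (slab b k) ^ 2) := by
  have hne : (slab b k).Nonempty := ⟨0, zero_mem_slab b hk⟩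
  obtain ⟨y, hy, hxy⟩ := (isClosed_slab b k).exists_infDist_eq_dist hne x
  have h1 : |⟪b, x⟫| ≤ k + infDist x (slab b k) := by
    have e1 : ⟪b, x⟫ = ⟪b, y⟫ + ⟪b, x - y⟫ := by rw [inner_sub_right]; ring
    rw [e1]
    refine (abs_add_le _ _).trans ?_
    have h2 : |⟪b, x - y⟫| ≤ infDist x (slab b k) := by
      calc |⟪b, x - y⟫| ≤ ‖b‖ * ‖x - y‖ := abs_real_inner_le_norm _ _
        _ ≤ 1 * ‖x - y‖ := by gcongr
        _ = _ := by rw [one_mul, hxy, dist_eq_norm]
    have h3 : |⟪b, y⟫| ≤ k := hy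
    linarith
  set r := infDist x (slab b k) with hr
  have hr0 : 0 ≤ r := infDist_nonneg
  have h4 := Real.add_one_le_exp (c * r ^ 2)
  have h5 : r ≤ 1 + (1 / c) * (c * r ^ 2) := by
    have : (1 / c) * (c * r ^ 2) = r ^ 2 := by field_simp
    rw [this]
    nlinarith [sq_nonneg (r - 1 / 2)]
  have h6 : 0 ≤ c * r ^ 2 := by positivity
  have h7 : 0 < 1 / c := by positivity
  have h8 : 1 ≤ Real.exp (c * r ^ 2) := by linarith
  nlinarith [mul_nonneg h7.le h6, mul_le_mul_of_nonneg_left h4 h7.le]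

end Vale.Agent.P262.H633
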