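import Vale.Agent.P262.H962.PCap

/-!
# P262, milestone 2: the radius

`R = R0 * √n`, `n = finrank E`, `R0` depending only on the absolute constants: the hypothesis of
`H962.exp_le_cap` at every dimension `≤ n` and the Gaussian tail of the ball.
-/

set_option linter.all false

open MeasureTheory ProbabilityTheory Set
open scoped ENNReal RealInnerProductSpace

namespace Vale.Agent.P262.H633

/-- the square of the radius constant -/
noncomputable def R0sq (q A0 kap b0 Lam c : ℝ) : ℝ :=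
  2 * q + 16 * (Real.log (b0 / A0) + Real.log (1 / kap)) +
    8 * (Lam + Real.log (1 / A0) + Real.log (1 / kap)) + 4 * Real.log (2 / c) + 4

lemma R0sq_pos {q A0 kap b0 Lam c : ℝ} (hq : 0 ≤ q) (hA : 0 < A0) (hAb : A0 ≤ b0) (hb : b0 ≤ 1)
    (hk : 0 < kap) (hk1 : kap ≤ 1) (hL : 0 ≤ Lam) (hc : 0 < c) (hc1 : c ≤ 1) :
    4 ≤ R0sq q A0 kap b0 Lam c := by
  have h1 : 0 ≤ Real.log (b0 / A0) := Real.log_nonneg (by rw [le_div_iff₀ hA]; linarith)
  have h2 : 0 ≤ Real.log (1 / kap) := Real.log_nonneg (by rw [le_div_iff₀ hk]; linarith)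
  have h3 : 0 ≤ Real.log (1 / A0) := Real.log_nonneg (by rw [le_div_iff₀ hA]; linarith)
  have h4 : 0 ≤ Real.log (2 / c) := Real.log_nonneg (by rw [le_div_iff₀ hc]; linarith)
  unfold R0sq
  linarith

/-- the radius condition of `exp_le_cap` -/
theorem rad_cond {q A0 kap b0 Lam c : ℝ} (hq : 0 ≤ q) (hA : 0 < A0) (hAb : A0 ≤ b0) (hb : b0 ≤ 1)
    (hk : 0 < kap) (hk1 : kap ≤ 1) (hL : 0 ≤ Lam) (hc : 0 < c) (hc1 : c ≤ 1) {n D : ℕ}
    (hn : 1 ≤ n) (hD : D ≤ n) {R : ℝ} (hR : R0sq q A0 kap b0 Lam c * n ≤ R ^ 2) :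
    (Real.sqrt (q * D) + Real.sqrt (8 * Real.log (b0 / (A0 * kap ^ D)))) ^ 2 +
      8 * (Lam + Real.log (1 / (A0 * kap ^ D))) ≤ R ^ 2 := by
  have hkD : 0 < kap ^ D := by positivity
  have e1 : Real.log (b0 / (A0 * kap ^ D)) = Real.log (b0 / A0) + D * Real.log (1 / kap) := by
    have hb0 : 0 < b0 := lt_of_lt_of_le hA hAb
    rw [← div_div, Real.log_div (by positivity) hkD.ne', Real.log_pow, one_div, Real.log_inv]
    ring
  have e2 : Real.log (1 / (A0 * kap ^ D)) = Real.log (1 / A0) + D * Real.log (1 / kap) := by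
    rw [← div_div, Real.log_div (by positivity) hkD.ne', Real.log_pow, one_div kap, Real.log_inv]
    ring
  have h1 : 0 ≤ Real.log (b0 / A0) := Real.log_nonneg (by rw [le_div_iff₀ hA]; linarith)
  have h2 : 0 ≤ Real.log (1 / kap) := Real.log_nonneg (by rw [le_div_iff₀ hk]; linarith)
  have h3 : 0 ≤ Real.log (1 / A0) := Real.log_nonneg (by rw [le_div_iff₀ hA]; linarith)
  have h4 : 0 ≤ Real.log (2 / c) := Real.log_nonneg (by rw [le_div_iff₀ hc]; linarith)
  have hn' : (1 : ℝ) ≤ n := by exact_mod_cast hn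
  have hD' : (D : ℝ) ≤ n := by exact_mod_cast hD
  have hD0 : (0 : ℝ) ≤ D := Nat.cast_nonneg D
  set u := Real.log (b0 / A0) with hu
  set v := Real.log (1 / kap) with hv
  set w := Real.log (1 / A0) with hw
  rw [e1, e2]
  have h5 : (Real.sqrt (q * D) + Real.sqrt (8 * (u + D * v))) ^ 2 ≤
      2 * (q * D) + 2 * (8 * (u + D * v)) := by
    have a1 : Real.sqrt (q * D) ^ 2 = q * D := Real.sq_sqrt (by positivity)
    have a2 : Real.sqrt (8 * (u + D * v)) ^ 2 = 8 * (u + D * v) := Real.sq_sqrt (by positivity)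
    nlinarith [sq_nonneg (Real.sqrt (q * D) - Real.sqrt (8 * (u + D * v)))]
  refine le_trans ?_ hR
  unfold R0sq
  rw [← hu, ← hv, ← hw]
  have b1 : q * D ≤ q * n := by gcongr
  have b2 : D * v ≤ n * v := by gcongr
  have b3 : u ≤ u * n := by nlinarith
  have b4 : w ≤ w * n := by nlinarith
  have b5 : Lam ≤ Lam * n := by nlinarith
  have b6 : 0 ≤ (4 * Real.log (2 / c) + 4) * n := by positivity
  calc (Real.sqrt (q * D) + Real.sqrt (8 * (u + D * v))) ^ 2 + 8 * (Lam + (w + D * v))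
      ≤ 2 * (q * n) + 2 * (8 * (u * n + n * v)) + 8 * (Lam * n + (w * n + n * v)) := by
        linarith
    _ ≤ 2 * (q * n) + 2 * (8 * (u * n + n * v)) + 8 * (Lam * n + (w * n + n * v)) +
        (4 * Real.log (2 / c) + 4) * n := by linarith
    _ = _ := by ring

variable {E : Type*} [NormedAddCommGroup E] [InnerProductSpace ℝ E] [FiniteDimensional ℝ E]
  [MeasurableSpace E] [BorelSpace E]

/-- the Gaussian tail -/
theorem ball_tail {q A0 kap b0 Lam c : ℝ} (hq : 0 ≤ q) (hA : 0 < A0) (hAb : A0 ≤ b0)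
    (hb : b0 ≤ 1) (hk : 0 < kap) (hk1 : kap ≤ 1) (hL : 0 ≤ Lam) (hc : 0 < c) (hc1 : c ≤ 1)
    (hn : 1 ≤ Module.finrank ℝ E) {R : ℝ} (hR0 : 0 ≤ R)
    (hR : R0sq q A0 kap b0 Lam c * Module.finrank ℝ E ≤ R ^ 2) :
    (stdGaussian E).real (Metric.closedBall (0 : E) R)ᶜ ≤ c := by
  set n := Module.finrank ℝ E with hn'
  have hnr : (1 : ℝ) ≤ n := by exact_mod_cast hn
  have h1 : 0 ≤ Real.log (b0 / A0) := Real.log_nonneg (by rw [le_div_iff₀ hA]; linarith)
  have h2 : 0 ≤ Real.log (1 / kap) := Real.log_nonneg (by rw [le_div_iff₀ hk]; linarith)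
  have h3 : 0 ≤ Real.log (1 / A0) := Real.log_nonneg (by rw [le_div_iff₀ hA]; linarith)
  have hs2 : Real.sqrt 2 ≤ 2 := by
    rw [show (2 : ℝ) = Real.sqrt (2 ^ 2) by rw [Real.sqrt_sq (by norm_num)]]
    exact Real.sqrt_le_sqrt (by norm_num)
  set q' := 4 * Real.log (2 / c) with hq'
  have hsub : (Metric.closedBall (0 : E) R)ᶜ ⊆
      {x | q' * Module.finrank ℝ (⊤ : Submodule ℝ E) < ‖(⊤ : Submodule ℝ E).starProjection x‖ ^ 2} := by
    intro x hx
    rw [mem_compl_iff, mem_closedBall_zero_iff, not_le] at hx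
    show q' * (Module.finrank ℝ (⊤ : Submodule ℝ E) : ℝ) < ‖(⊤ : Submodule ℝ E).starProjection x‖ ^ 2
    rw [finrank_top, Submodule.starProjection_eq_self_iff.mpr (Submodule.mem_top), ← hn']
    have h5 : R ^ 2 < ‖x‖ ^ 2 := by gcongr
    have h6 : q' * n ≤ R0sq q A0 kap b0 Lam c * n := by
      apply mul_le_mul_of_nonneg_right _ (by positivity)
      unfold R0sq
      linarith
    linarith
  have h4 := H962.chi_tail (⊤ : Submodule ℝ E) (q := q')
  rw [finrank_top, ← hn'] at h4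
  have h5 : Real.sqrt 2 * Real.exp (-(q' / 4)) ≤ c := by
    have e1 : -(q' / 4) = Real.log (c / 2) := by
      rw [hq', Real.log_div (by norm_num) hc.ne', Real.log_div hc.ne' (by norm_num)]
      ring
    rw [e1, Real.exp_log (by positivity)]
    nlinarith
  have h6 : ENNReal.ofReal (Real.sqrt 2 * Real.exp (-(q' / 4))) ^ n ≤ ENNReal.ofReal c := by
    have h7 : ENNReal.ofReal (Real.sqrt 2 * Real.exp (-(q' / 4))) ≤ ENNReal.ofReal c :=
      ENNReal.ofReal_le_ofReal h5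
    have h8 : ENNReal.ofReal c ≤ 1 := by
      rw [← ENNReal.ofReal_one]
      exact ENNReal.ofReal_le_ofReal hc1
    calc _ ≤ ENNReal.ofReal (Real.sqrt 2 * Real.exp (-(q' / 4))) ^ 1 :=
          pow_le_pow_right_of_le_one' (h7.trans h8) hn
      _ ≤ _ := by rw [pow_one]; exact h7
  have h7 : stdGaussian E (Metric.closedBall (0 : E) R)ᶜ ≤ ENNReal.ofReal c := by
    refine (measure_mono hsub).trans (le_trans ?_ h6)
    simpa [← hn'] using h4
  exact ENNReal.toReal_le_of_le_ofReal hc.le h7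

/-- **the radius of milestone 2** -/
theorem exists_radius {q A0 kap b0 Lam c : ℝ} (hq : 0 ≤ q) (hA : 0 < A0) (hAb : A0 ≤ b0)
    (hb : b0 ≤ 1) (hk : 0 < kap) (hk1 : kap ≤ 1) (hL : 0 ≤ Lam) (hc : 0 < c) (hc1 : c ≤ 1) :
    ∃ R0 : ℝ, 2 ≤ R0 ∧ (∀ n D : ℕ, 1 ≤ n → D ≤ n →
      (Real.sqrt (q * D) + Real.sqrt (8 * Real.log (b0 / (A0 * kap ^ D)))) ^ 2 +
        8 * (Lam + Real.log (1 / (A0 * kap ^ D))) ≤ (R0 * Real.sqrt n) ^ 2) ∧
      ∀ (F : Type) [NormedAddCommGroup F] [InnerProductSpace ℝ F] [FiniteDimensional ℝ F]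
        [MeasurableSpace F] [BorelSpace F], 1 ≤ Module.finrank ℝ F →
        (stdGaussian F).real (Metric.closedBall (0 : F)
          (R0 * Real.sqrt (Module.finrank ℝ F)))ᶜ ≤ c := by
  have h4 := R0sq_pos hq hA hAb hb hk hk1 hL hc hc1
  have e1 : ∀ n : ℕ, (Real.sqrt (R0sq q A0 kap b0 Lam c) * Real.sqrt n) ^ 2 =
      R0sq q A0 kap b0 Lam c * n := by
    intro n
    rw [mul_pow, Real.sq_sqrt (by linarith), Real.sq_sqrt (Nat.cast_nonneg n)]
  refine ⟨Real.sqrt (R0sq q A0 kap b0 Lam c), ?_, ?_, ?_⟩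
  · rw [show (2 : ℝ) = Real.sqrt (2 ^ 2) by rw [Real.sqrt_sq (by norm_num)]]
    exact Real.sqrt_le_sqrt (by linarith)
  · intro n D hn hD
    exact rad_cond hq hA hAb hb hk hk1 hL hc hc1 hn hD (e1 n).ge
  · intro F _ _ _ _ _ hF
    exact ball_tail hq hA hAb hb hk hk1 hL hc hc1 hF (by positivity) (e1 _).ge

end Vale.Agent.P262.H633
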