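import Vale.Agent.P262.M2.Fld
import Vale.Agent.P262.M2.Nodes
import Vale.Agent.P262.H654.One

/-!
# P262, milestone 2: outer rotations (part 1): the `L¹` change of the field

A rotation `m` of the node `jj m`, seen from a node `p` which is not strictly above `jj m`: label
spaces, classes, caps and coordinates of all nodes below `p` do not change, only the body does.
`L1 p m x` = `L¹` change of the field over the label `x` of `p`; it is at most the change `Dl` of the
body plus `∑_k 2^k 16 (M+1) E[A Dl]` over the levels below `p`.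
-/

set_option linter.all false

open MeasureTheory ProbabilityTheory Set
open scoped ENNReal RealInnerProductSpace
open Vale.Agent.P262.H395 (fib mix Inv Fixes inv_fib measurable_fib fib_tower fib_mono fib_add
  fib_mul fib_const fib_fixes)
open Vale.Agent.P262.H395.Tree (InvN measurable_sel)
open Vale.Agent.P262.H44 (InvS)
open Vale.Agent.P262.H847 (UI)
open Vale.Agent.P262.H713 (fr_congr fib_congr mem_iff_of)
open Vale.Agent.P262.H654 (tr phi sg Bd InvR fr Lev LevOK ofReal_fr sg_pos sg_le_one_add)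

namespace Vale.Agent.P262.M2.Sys

variable {E : Type*} [NormedAddCommGroup E] [InnerProductSpace ℝ E] [FiniteDimensional ℝ E]
  [MeasurableSpace E] [BorelSpace E] (S : Sys E)

/-- the `L¹` change of the field in the move `m` at the label `x` of the node `p` -/
noncomputable def L1 (p : List ℕ) (m : ℕ) (x : E) : ℝ≥0∞ :=
  fib (S.W p m) (fun y => ENNReal.ofReal |S.fld p (m + 1) y - S.fld p m y|) x

open Classical in
/-- level `k` below `p`: cap times change of the body, at labels which are not killed; `0` below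
leaves -/
noncomputable def tO : ℕ → List ℕ → ℕ → E → ℝ≥0∞
  | 0, p, m, x => (S.Z p m)ᶜ.indicator (fun y => S.A p m y * S.Dl p m y) x
  | k + 1, p, m, x => if S.Leaf p m then 0 else tO k (S.kl p m x :: p) m x

variable {S}

/-! ### nothing but the body changes -/

section succ

variable {m : ℕ} (h : S.mv.IsStar m ∨ S.mv.IsRot m) (hm : m < S.mT)
include h hm

lemma A_succ_o (p : List ℕ) : S.A p (m + 1) = S.A p m :=
  (Same.active (S.K.zero_mem_nw p) h (S.tm_lt_f hm.le)).A subset_rfl (S.tm_lt_f hm.le)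

lemma Z_succ_o (p : List ℕ) : S.Z p (m + 1) = S.Z p m :=
  (Same.active (S.K.zero_mem_nw p) h (S.tm_lt_f hm.le)).Z subset_rfl (S.tm_lt_f hm.le)

lemma kl_succ_o (p : List ℕ) : S.kl p (m + 1) = S.kl p m := by
  funext x
  exact kl_same (Same.active (S.zero_mem_BB p m x) h (S.tm_lt_f hm.le)) (S.tm_lt_f hm.le)

lemma leaf_succ_o (p : List ℕ) : S.Leaf p (m + 1) ↔ S.Leaf p m :=
  (Same.active (S.K.zero_mem_nw p) h (S.tm_lt_f hm.le)).leaf subset_rfl (S.tm_lt_f hm.le)

lemma cf_succ_o (p : List ℕ) : S.cf (m + 1) p = S.cf m p := by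
  funext x
  unfold cf
  rw [A_succ_o h hm]

lemma nb_succ_o (p : List ℕ) (x : E) (k : ℕ) : S.nb p (m + 1) x k = S.nb p m x k := by
  induction k with
  | zero => rfl
  | succ k ih =>
    show S.kl (S.nb p (m + 1) x k) (m + 1) x :: S.nb p (m + 1) x k = _
    rw [ih, kl_succ_o h hm]
    rfl

end succ

lemma Q_succ_o {m : ℕ} (h : S.mv.IsRot m) {q : List ℕ} (hq : q ≠ S.mv.jj m) :
    S.mv.Q (m + 1) q = S.mv.Q m q := (S.mv.rot (S.mv.tm m) m h.1 h.2).1.of_ne hq

/-! ### the terms -/

lemma tO_zero (p : List ℕ) (m : ℕ) (x : E) :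
    S.tO 0 p m x = (S.Z p m)ᶜ.indicator (fun y => S.A p m y * S.Dl p m y) x := rfl

lemma tO_leaf {p : List ℕ} {m : ℕ} (hl : S.Leaf p m) (k : ℕ) (x : E) :
    S.tO (k + 1) p m x = 0 := by
  rw [tO, if_pos hl]

lemma tO_node {p : List ℕ} {m : ℕ} (hl : ¬ S.Leaf p m) (k : ℕ) (x : E) :
    S.tO (k + 1) p m x = S.tO k (S.kl p m x :: p) m x := by
  rw [tO, if_neg hl]

lemma measurable_tO (m : ℕ) (k : ℕ) : ∀ p : List ℕ, Measurable (S.tO k p m) := by
  induction k with
  | zero =>
    intro p
    exact ((S.A_meas p m).mul (S.Dl_meas p m)).indicator (S.measurableSet_Z p m).compl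
  | succ k ih =>
    intro p
    by_cases hl : S.Leaf p m
    · have e : S.tO (k + 1) p m = fun _ => 0 := by
        funext x
        exact tO_leaf hl k x
      rw [e]
      exact measurable_const
    · have e : S.tO (k + 1) p m = fun x => (fun c : ℕ => S.tO k (c :: p) m) (S.kl p m x) x := by
        funext x
        exact tO_node hl k x
      rw [e]
      exact measurable_sel (F := fun c : ℕ => S.tO k (c :: p) m) (fun c => ih (c :: p))
        (measurable_kl p m)

/-! ### one level -/

/-- the child as a level of 654 -/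
noncomputable def levO (S : Sys E) (q : List ℕ) (m : ℕ) : Lev E := ⟨S.W q m, S.cf m q, S.Z q m⟩

lemma levO_ok {m : ℕ} (hL : S.LabOK m) (q : List ℕ) : LevOK S.cc (S.levO q m) :=
  ⟨(hL.ok q).meas, (hL.ok q).inv, (hL.ok q).measZ, (hL.ok q).invZ, (hL.ok q).nonneg,
    (hL.ok q).le⟩

lemma slp_killed_o {m : ℕ} (q : List ℕ) (F : E → ℝ) {z : E} (hz : z ∈ S.Z q m) :
    H654.slp (S.levO q m) F z = 0 := by
  unfold H654.slp
  exact if_neg (fun h => h.1 hz)

lemma slp_alive_o {m : ℕ} (q : List ℕ) (F : E → ℝ) {z : E} (hz : z ∉ S.Z q m) :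
    ENNReal.ofReal (H654.slp (S.levO q m) F z)
      ≤ 1 + 16 * (ENNReal.ofReal (S.M + 1) * S.A q m z) := by
  unfold H654.slp
  split_ifs with h
  · have h1 := sg_le_one_add (S.cf_nonneg m q z) ((S.cf_le hz).trans S.cc_le')
    refine (ENNReal.ofReal_le_ofReal h1).trans_eq ?_
    rw [← S.ofReal_cf, ENNReal.ofReal_add zero_le_one (by have := S.cf_nonneg m q z; positivity),
      ENNReal.ofReal_mul (by norm_num)]
    simp
  · rw [ENNReal.ofReal_zero]; exact zero_le

lemma one_cA_le {m : ℕ} (q : List ℕ) {z : E} (hz : z ∉ S.Z q m) :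
    1 + 16 * (ENNReal.ofReal (S.M + 1) * S.A q m z) ≤ 2 := by
  rw [← S.ofReal_cf]
  have h1 := (S.cf_le hz).trans S.cc_le
  have h2 : ENNReal.ofReal (S.cf m q z) ≤ ENNReal.ofReal (1 / 32) := ENNReal.ofReal_le_ofReal h1
  calc 1 + 16 * ENNReal.ofReal (S.cf m q z) ≤ 1 + 16 * ENNReal.ofReal (1 / 32) := by gcongr
    _ = ENNReal.ofReal (1 + 16 * (1 / 32)) := by
      rw [ENNReal.ofReal_add zero_le_one (by norm_num), ENNReal.ofReal_mul (by norm_num)]
      simp
    _ ≤ ENNReal.ofReal 2 := ENNReal.ofReal_le_ofReal (by norm_num)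
    _ = 2 := by simp

lemma L1_inv (p : List ℕ) (m : ℕ) : Inv (S.W p m) (S.L1 p m) := inv_fib _ _

lemma measurable_L1 {m : ℕ} (hm : m < S.mT) (p : List ℕ) : Measurable (S.L1 p m) := by
  have u := (S.labOK (m := m) hm.le).fld_UI (p := p)
  have u' := (S.labOK (m := m + 1) hm).fld_UI (p := p)
  exact measurable_fib ((u'.meas.sub u.meas).abs).ennreal_ofReal

lemma fib_sum_o (W : Submodule ℝ E) (s : Finset ℕ) {f : ℕ → E → ℝ≥0∞}
    (hf : ∀ k, Measurable (f k)) (x : E) :
    fib W (fun y => ∑ k ∈ s, f k y) x = ∑ k ∈ s, fib W (f k) x := by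
  unfold H395.fib
  exact lintegral_finset_sum s fun k _ => (hf k).comp (H395.measurable_mix_right W x)

/-- **one level of the `L¹` change** -/
lemma L1_child {m : ℕ} (h : S.mv.IsRot m) (hm : m < S.mT) {p : List ℕ} (hl : ¬ S.Leaf p m)
    {x : E} (hq : S.kl p m x :: p ≠ S.mv.jj m) :
    S.L1 p m x ≤ fib (S.W p m) (fun z => (S.Z (S.kl p m x :: p) m)ᶜ.indicator
      (fun z => (1 + 16 * (ENNReal.ofReal (S.M + 1) * S.A (S.kl p m x :: p) m z))
        * S.L1 (S.kl p m x :: p) m z) z) x := by
  classical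
  set q := S.kl p m x :: p with hqdef
  have hL := S.labOK (m := m) hm.le
  have hL' := S.labOK (m := m + 1) hm
  have hR : Fixes (S.mv.Q m q).symm (S.W p m) := (S.Q_fix _ p m).symm
  have u := hL.fld_UI (p := q)
  have u' := hL'.fld_UI (p := q)
  have hlev := levO_ok hL q
  -- the two fields above the child
  set f := H654.fl [S.levO q m] (S.fld q m) with hf
  set f' := H654.fl [S.levO q m] (S.fld q (m + 1)) with hf'
  have hfU : UI f := H654.fl_one_UI hlev S.cc_le' u
  have hfU' : UI f' := H654.fl_one_UI hlev S.cc_le' u'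
  have hmeas : Measurable fun z => ENNReal.ofReal |f' z - f z| :=
    ((hfU'.meas.sub hfU.meas).abs).ennreal_ofReal
  have eW : S.W q (m + 1) = S.W q m := S.W_succ_active (Or.inr h) q
  have e1 : ∀ y, (S.W p m).starProjection y = (S.W p m).starProjection x →
      S.fld p m y = f ((S.mv.Q m q).symm y) := by
    intro y hy
    rw [fld_node hL hm.le hl y, hL.kl_eq hy, ← hqdef]
    rfl
  have e2 : ∀ y, (S.W p m).starProjection y = (S.W p m).starProjection x →
      S.fld p (m + 1) y = f' ((S.mv.Q m q).symm y) := by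
    intro y hy
    have hl' : ¬ S.Leaf p (m + 1) := fun hh => hl ((leaf_succ_o (Or.inr h) hm p).1 hh)
    rw [fld_node hL' hm hl' y, kl_succ_o (Or.inr h) hm p, hL.kl_eq hy, ← hqdef,
      Q_succ_o h hq, Z_succ_o (Or.inr h) hm q, cf_succ_o (Or.inr h) hm q, hf']
    unfold Fr
    rw [eW]
    rfl
  have e3 : S.L1 p m x
      = fib (S.W p m) (fun y => (fun z => ENNReal.ofReal |f' z - f z|) ((S.mv.Q m q).symm y)) x := by
    unfold L1
    apply fib_congr
    intro y hy
    simp only
    rw [e1 y hy, e2 y hy]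
  rw [e3, fib_fixes hR hmeas, ← fib_tower (S.W_le (S.kl p m x) p m) hmeas]
  refine fib_mono (fun z => ?_) x
  have e4 : fib (S.W q m) (fun z => ENNReal.ofReal |f' z - f z|) z
      = ENNReal.ofReal (fr (S.W q m) (fun z => |f' z - f z|) z) :=
    (ofReal_fr ((Bd.of_UI hfU').sub (Bd.of_UI hfU)).abs (fun y => abs_nonneg _) z).symm
  have e5 : S.L1 q m z
      = ENNReal.ofReal (fr (S.W q m) (fun z => |S.fld q (m + 1) z - S.fld q m z|) z) :=
    (ofReal_fr ((Bd.of_UI u').sub (Bd.of_UI u)).abs (fun y => abs_nonneg _) z).symm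
  rw [← hqdef, e4]
  have key := H654.one_step hlev S.cc_le' u u' z
  have hk : ENNReal.ofReal (fr (S.W q m) (fun z => |f' z - f z|) z)
      ≤ ENNReal.ofReal (H654.slp (S.levO q m) (fr (S.W q m) fun z => max (S.fld q m z)
          (S.fld q (m + 1) z)) z) * S.L1 q m z := by
    rw [e5, ← ENNReal.ofReal_mul (H654.slp_nonneg hlev S.cc_le' _ z)]
    exact ENNReal.ofReal_le_ofReal key
  refine hk.trans ?_
  by_cases hz : z ∈ S.Z q m
  · rw [slp_killed_o q _ hz, ENNReal.ofReal_zero, zero_mul]
    exact zero_le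
  · rw [indicator_of_mem (show z ∈ (S.Z q m)ᶜ from hz)]
    exact mul_le_mul' (slp_alive_o q _ hz) le_rfl

/-- at a leaf the field is the body -/
lemma L1_leaf {m : ℕ} (h : S.mv.IsRot m) (hm : m < S.mT) {p : List ℕ} (hl : S.Leaf p m) (x : E) :
    S.L1 p m x = S.Dl p m x := by
  have hL := S.labOK (m := m) hm.le
  have hL' := S.labOK (m := m + 1) hm
  have hl' : S.Leaf p (m + 1) := (leaf_succ_o (Or.inr h) hm p).2 hl
  rw [S.Dl_active (Or.inr h)]
  unfold L1
  congr 1
  funext y
  rw [fld_leaf hL hm.le hl, fld_leaf hL' hm hl']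
  by_cases h1 : y ∈ S.X p m <;> by_cases h2 : y ∈ S.X p (m + 1)
  · rw [S.pf_mem h1, S.pf_mem h2, indicator_of_notMem (by simp [Set.mem_symmDiff, h1, h2])]
    simp
  · rw [S.pf_mem h1, S.pf_notMem h2, indicator_of_mem (by simp [Set.mem_symmDiff, h1, h2])]
    simp
  · rw [S.pf_notMem h1, S.pf_mem h2, indicator_of_mem (by simp [Set.mem_symmDiff, h1, h2])]
    simp
  · rw [S.pf_notMem h1, S.pf_notMem h2, indicator_of_notMem (by simp [Set.mem_symmDiff, h1, h2])]
    simp

/-- the change of the body, averaged over the children, when the coordinates of the child do not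
change -/
lemma Dl_child {m : ℕ} (h : S.mv.IsRot m) {p : List ℕ} {c : ℕ} (hq : c :: p ≠ S.mv.jj m) (x : E) :
    fib (S.W p m) (S.Dl (c :: p) m) x = S.Dl p m x := by
  have hR : Fixes (S.mv.Q m (c :: p)) (S.W p m) := S.Q_fix _ p m
  have hms : Measurable ((symmDiff (S.X p m) (S.X p (m + 1))).indicator (1 : E → ℝ≥0∞)) :=
    measurable_one.indicator ((S.measurableSet_X p m).symmDiff (S.measurableSet_X p (m + 1)))
  have hms' : Measurable ((symmDiff (S.X (c :: p) m) (S.X (c :: p) (m + 1))).indicator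
      (1 : E → ℝ≥0∞)) :=
    measurable_one.indicator ((S.measurableSet_X _ m).symmDiff (S.measurableSet_X _ (m + 1)))
  have e1 : S.Dl (c :: p) m = fib (S.W (c :: p) m)
      ((symmDiff (S.X (c :: p) m) (S.X (c :: p) (m + 1))).indicator 1) := by
    funext y
    exact S.Dl_active (Or.inr h) y
  rw [e1, fib_tower (S.W_le c p m) hms', S.Dl_active (Or.inr h), ← fib_fixes hR hms]
  congr 1
  funext y
  have e2 : y ∈ symmDiff (S.X (c :: p) m) (S.X (c :: p) (m + 1))
      ↔ S.mv.Q m (c :: p) y ∈ symmDiff (S.X p m) (S.X p (m + 1)) := by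
    rw [Set.mem_symmDiff, Set.mem_symmDiff, S.mem_X_cons_f, S.mem_X_cons_f, Q_succ_o h hq]
  by_cases hy : y ∈ symmDiff (S.X (c :: p) m) (S.X (c :: p) (m + 1))
  · rw [indicator_of_mem hy, indicator_of_mem (e2.1 hy)]; rfl
  · rw [indicator_of_notMem hy, indicator_of_notMem (fun hh => hy (e2.2 hh))]

/-- **the `L¹` change of the field in an outer rotation** -/
theorem L1_le {m : ℕ} (h : S.mv.IsRot m) (hm : m < S.mT) (n : ℕ) : ∀ (p : List ℕ)
    (_ : Module.finrank ℝ E ≤ p.length + n + 1) (_ : (S.mv.jj m).length ≤ p.length) (x : E),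
    S.L1 p m x ≤ S.Dl p m x + ∑ k ∈ Finset.range n,
      ENNReal.ofReal (16 * (S.M + 1) * 2 ^ k) * fib (S.W p m) (S.tO (k + 1) p m) x := by
  induction n with
  | zero =>
    intro p hp _ x
    have hl : S.Leaf p m := S.leaf_of_length_f hm.le (by omega)
    rw [L1_leaf h hm hl]
    exact le_self_add
  | succ n ih =>
    intro p hp hlen x
    by_cases hl : S.Leaf p m
    · rw [L1_leaf h hm hl]
      exact le_self_add
    have hL := S.labOK (m := m) hm.le
    have hM := S.hM
    set q := S.kl p m x :: p with hqdef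
    have hq : q ≠ S.mv.jj m := by
      intro h0
      rw [← h0, hqdef, List.length_cons] at hlen
      omega
    have hqlen : q.length = p.length + 1 := by rw [hqdef, List.length_cons]
    have ihq := ih q (by omega) (by omega)
    set B := ENNReal.ofReal (16 * (S.M + 1)) with hB
    have hBM : B = 16 * ENNReal.ofReal (S.M + 1) := by
      rw [hB, ENNReal.ofReal_mul (by norm_num)]
      norm_num
    have hBk : ∀ k : ℕ, ENNReal.ofReal (16 * (S.M + 1) * 2 ^ k) = B * 2 ^ k := by
      intro k
      rw [hB, ENNReal.ofReal_mul (by linarith), ENNReal.ofReal_pow (by norm_num)]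
      norm_num
    -- pointwise bound at the child
    have hpt : ∀ z, (S.Z q m)ᶜ.indicator
        (fun z => (1 + 16 * (ENNReal.ofReal (S.M + 1) * S.A q m z)) * S.L1 q m z) z
        ≤ S.Dl q m z + (B * S.tO 0 q m z + ∑ k ∈ Finset.range n,
          B * 2 ^ (k + 1) * fib (S.W q m) (S.tO (k + 1) q m) z) := by
      intro z
      by_cases hz : z ∈ S.Z q m
      · rw [indicator_of_notMem (show z ∉ (S.Z q m)ᶜ from fun hh => hh hz)]
        exact zero_le
      · rw [indicator_of_mem (show z ∈ (S.Z q m)ᶜ from hz), tO_zero,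
          indicator_of_mem (show z ∈ (S.Z q m)ᶜ from hz)]
        set c := ENNReal.ofReal (S.M + 1) * S.A q m z with hc
        have h2 : 1 + 16 * c ≤ 2 := one_cA_le q hz
        calc (1 + 16 * c) * S.L1 q m z
            ≤ (1 + 16 * c) * (S.Dl q m z + ∑ k ∈ Finset.range n,
              ENNReal.ofReal (16 * (S.M + 1) * 2 ^ k)
                * fib (S.W q m) (S.tO (k + 1) q m) z) := by gcongr; exact ihq z
          _ = (1 + 16 * c) * S.Dl q m z + (1 + 16 * c) * ∑ k ∈ Finset.range n,
              ENNReal.ofReal (16 * (S.M + 1) * 2 ^ k)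
                * fib (S.W q m) (S.tO (k + 1) q m) z := by rw [mul_add]
          _ ≤ (S.Dl q m z + B * (S.A q m z * S.Dl q m z)) + 2 * ∑ k ∈ Finset.range n,
              ENNReal.ofReal (16 * (S.M + 1) * 2 ^ k)
                * fib (S.W q m) (S.tO (k + 1) q m) z := by
            refine add_le_add (le_of_eq ?_) (mul_le_mul' h2 le_rfl)
            rw [hBM, hc]
            ring
          _ = _ := by
            rw [Finset.mul_sum, add_assoc]
            congr 2
            refine Finset.sum_congr rfl fun k _ => ?_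
            rw [hBk, pow_succ]
            ring
    refine (L1_child h hm hl hq).trans ?_
    refine (fib_mono hpt x).trans ?_
    -- towers
    have m0 : Measurable (S.Dl q m) := S.Dl_meas q m
    have m1 : Measurable fun z => B * S.tO 0 q m z := (measurable_tO m 0 q).const_mul _
    have m2 : ∀ k, Measurable fun z => B * 2 ^ (k + 1) * fib (S.W q m) (S.tO (k + 1) q m) z :=
      fun k => (measurable_fib (measurable_tO m (k + 1) q)).const_mul _
    have t : ∀ k, fib (S.W p m) (S.tO k q m) x = fib (S.W p m) (S.tO (k + 1) p m) x := by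
      intro k
      apply fib_congr
      intro y hy
      rw [tO_node hl, hL.kl_eq hy]
    have hsum : fib (S.W p m) (fun z => ∑ k ∈ Finset.range n,
        B * 2 ^ (k + 1) * fib (S.W q m) (S.tO (k + 1) q m) z) x
        = ∑ k ∈ Finset.range n, B * 2 ^ (k + 1) * fib (S.W p m) (S.tO (k + 2) p m) x := by
      rw [fib_sum_o (S.W p m) (Finset.range n) m2 x]
      refine Finset.sum_congr rfl fun k _ => ?_
      have e : fib (S.W p m) (fun y => B * 2 ^ (k + 1)
          * fib (S.W q m) (S.tO (k + 1) q m) y) x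
          = B * 2 ^ (k + 1) * fib (S.W p m) (fib (S.W q m) (S.tO (k + 1) q m)) x :=
        fib_mul (H395.inv_const _ _) (measurable_fib (measurable_tO m (k + 1) q)) x
      have e2 : fib (S.W p m) (fib (S.W q m) (S.tO (k + 1) q m)) x
          = fib (S.W p m) (S.tO (k + 1) q m) x :=
        fib_tower (S.W_le (S.kl p m x) p m) (measurable_tO m (k + 1) q) x
      rw [e2, t (k + 1)] at e
      exact e
    rw [fib_add m0, fib_add m1, hsum, Dl_child h hq,
      fib_mul (H395.inv_const _ _) (measurable_tO m 0 q), t 0, Finset.sum_range_succ']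
    refine add_le_add le_rfl ?_
    rw [add_comm]
    refine add_le_add (le_of_eq ?_) (le_of_eq ?_)
    · refine Finset.sum_congr rfl fun k _ => ?_
      rw [hBk]
    · rw [hBk]
      simp

lemma iw_le_o {s s' : Set E} {x : E} (h : x ∈ s → x ∈ s') : iw s x ≤ iw s' x := by
  unfold iw
  by_cases hx : x ∈ s
  · rw [indicator_of_mem hx, indicator_of_mem (h hx)]
  · rw [indicator_of_notMem hx]; exact zero_le

/-- the terms in the form with `nb` -/
lemma tO_le {m : ℕ} (k : ℕ) : ∀ (p : List ℕ) (x : E), S.tO k p m x ≤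
    iw {y | y ∉ S.Z (S.nb p m y k) m ∧ ∀ i < k, ¬ S.Leaf (S.nb p m y i) m} x
      * (S.A (S.nb p m x k) m x * S.Dl (S.nb p m x k) m x) := by
  induction k with
  | zero =>
    intro p x
    rw [tO_zero]
    unfold iw
    by_cases hx : x ∈ S.Z p m
    · rw [indicator_of_notMem (show x ∉ (S.Z p m)ᶜ from fun hh => hh hx)]; exact zero_le
    · have hx2 : x ∈ {y | y ∉ S.Z (S.nb p m y 0) m ∧ ∀ i < 0, ¬ S.Leaf (S.nb p m y i) m} :=
        ⟨hx, fun i hi => absurd hi (by omega)⟩
      rw [indicator_of_mem (show x ∈ (S.Z p m)ᶜ from hx), indicator_of_mem hx2, Pi.one_apply,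
        one_mul]
      exact le_rfl
  | succ k ih =>
    intro p x
    by_cases hl : S.Leaf p m
    · rw [tO_leaf hl]; exact zero_le
    rw [tO_node hl]
    refine (ih _ x).trans ?_
    rw [nb_succ']
    refine mul_le_mul' (iw_le_o fun hx => ?_) le_rfl
    refine ⟨by rw [nb_succ']; exact hx.1, fun i hi => ?_⟩
    rcases i with _ | i
    · exact hl
    · rw [nb_succ']
      exact hx.2 i (by omega)

end Vale.Agent.P262.M2.Sys
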