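import Vale.Agent.P262.H633.RotO
import Vale.Agent.P262.M2.Blocks

/-!
# P262, milestone 2: outer rotations (part 2): the Prop `ROTO`
-/

set_option linter.all false

open MeasureTheory ProbabilityTheory Set
open scoped ENNReal RealInnerProductSpace
open Vale.Agent.P262.H395 (fib mix Inv Fixes inv_fib measurable_fib fib_tower fib_mono fib_add
  fib_mul fib_const fib_fixes)
open Vale.Agent.P262.H395.Tree (InvN measurable_sel)
open Vale.Agent.P262.H44 (InvS)

namespace Vale.Agent.P262.M2.Sys

variable {E : Type*} [NormedAddCommGroup E] [InnerProductSpace ℝ E] [FiniteDimensional ℝ E]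
  [MeasurableSpace E] [BorelSpace E]

/-- `s` is a set of labels of level `l` -/
def LabS (S : Sys E) (l m : ℕ) (s : Set E) : Prop :=
  ∀ x, ∀ w ∈ (S.W (S.nd m x l) m)ᗮ, (x + w ∈ s ↔ x ∈ s)

variable {S : Sys E}

lemma measurableSet_nd_eq_o (m l : ℕ) (r : List ℕ) : MeasurableSet {x | S.nd m x l = r} := by
  classical
  have h := measurableSet_nd (S := S) m l (s := fun r' => if r' = r then univ else ∅)
    (fun r' => by
      split_ifs
      · exact MeasurableSet.univ
      · exact MeasurableSet.empty)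
  have e : {x | S.nd m x l = r} = {x | x ∈ (fun r' => if r' = r then (univ : Set E) else ∅)
      (S.nd m x l)} := by
    ext x
    simp only [mem_setOf_eq]
    split_ifs with h
    · simp [h]
    · simp [h]
  rw [e]
  exact h

/-- integration over the labels of level `l` -/
theorem int_lab_fib {l m : ℕ} (hm : S.mv.tm m < S.T) {s : Set E} (hs : MeasurableSet s)
    (hl : S.LabS l m s) {F : List ℕ → E → ℝ≥0∞} (hF : ∀ r, Measurable (F r)) :
    ∫⁻ x, iw s x * fib (S.W (S.nd m x l) m) (F (S.nd m x l)) x ∂stdGaussian E =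
      ∫⁻ x, iw s x * F (S.nd m x l) x ∂stdGaussian E := by
  have hinv : ∀ r, Inv (S.W r m) (iw (s ∩ {x | S.nd m x l = r})) := by
    intro r x w hw
    have key : ∀ x w, w ∈ (S.W r m)ᗮ → x ∈ s ∩ {x | S.nd m x l = r} →
        x + w ∈ s ∩ {x | S.nd m x l = r} := by
      rintro x w hw ⟨h1, h2⟩
      have hw' : w ∈ (S.W (S.nd m x l) m)ᗮ := by rw [h2]; exact hw
      exact ⟨(hl x w hw').2 h1, (nd_inv hm x l hw' l (by omega)).trans h2⟩
    have iff : x + w ∈ s ∩ {x | S.nd m x l = r} ↔ x ∈ s ∩ {x | S.nd m x l = r} := by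
      refine ⟨fun h => ?_, key x w hw⟩
      have := key (x + w) (-w) ((S.W r m)ᗮ.neg_mem hw) h
      rwa [add_neg_cancel_right] at this
    unfold iw
    by_cases h : x ∈ s ∩ {x | S.nd m x l = r}
    · rw [indicator_of_mem h, indicator_of_mem (iff.2 h)]; rfl
    · rw [indicator_of_notMem h, indicator_of_notMem (fun h' => h (iff.1 h'))]
  have hmeas : ∀ r, Measurable (iw (s ∩ {x | S.nd m x l = r})) := fun r =>
    measurable_one.indicator (hs.inter (measurableSet_nd_eq_o m l r))
  have h := int_mul_fib (S := S) hm l (g := fun r => iw (s ∩ {x | S.nd m x l = r})) (F := F)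
    hinv hmeas hF
  have e : ∀ x, iw (s ∩ {y | S.nd m y l = S.nd m x l}) x = iw s x := by
    intro x
    unfold iw
    by_cases h : x ∈ s
    · rw [indicator_of_mem h, indicator_of_mem (show x ∈ s ∩ {y | S.nd m y l = S.nd m x l} from
        ⟨h, rfl⟩)]
    · rw [indicator_of_notMem h, indicator_of_notMem (fun h' => h h'.1)]
  simpa only [e] using h

lemma labS_thru_OL {j l m : ℕ} (hm : S.mv.tm m < S.T) (hj : j ≤ l) :
    S.LabS l m (S.thru j m ∩ S.OL l m) := by
  intro x w hw
  have h1 := nd_inv hm x l hw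
  have h2 : x + w ∈ S.thru j m ↔ x ∈ S.thru j m := by
    unfold thru
    simp only [mem_setOf_eq]
    rw [h1 j (by omega)]
  have h3 : x + w ∈ S.OL l m ↔ x ∈ S.OL l m := by
    refine forall_congr' fun i => forall_congr' fun hi => ?_
    rw [h1 i (by omega)]
    exact om_inv _ hm x w (Submodule.orthogonal_le (S.W_mono (nd_suffix_nd m x hi.le) m) hw)
  exact and_congr h2 h3

lemma measurableSet_thru_o (j m : ℕ) : MeasurableSet (S.thru j m) := measurableSet_nd_eq_o m j _

/-! ### weights -/

lemma A_le_one_o {p : List ℕ} {m : ℕ} {x : E} (h : x ∉ S.Z p m) : S.A p m x ≤ 1 := by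
  refine (S.A_le_of_not_Z h).trans ?_
  have h1 := S.hMb
  have h2 := S.hM
  have h3 := S.b0_pos_f
  rw [← ENNReal.ofReal_one]
  refine ENNReal.ofReal_le_ofReal ?_
  nlinarith

lemma slp_le_one_o (p : List ℕ) (m : ℕ) (x : E) (s : ℝ≥0∞) : S.slp p m x s ≤ 1 := by
  unfold slp
  refine ENNReal.rpow_le_one ?_ S.hth.le
  exact ENNReal.div_le_of_le_mul (by rw [one_mul]; exact le_max_left _ _)

/-- cap times change is at most the weighted change -/
lemma A_mul_Dl_le_xd {p : List ℕ} {m : ℕ} {x : E} (h : x ∉ S.Z p m) :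
    S.A p m x * S.Dl p m x ≤ S.xd p m x := by
  unfold xd
  refine mul_le_mul' ?_ le_rfl
  have h1 := A_le_one_o h
  have h2 : max (S.A p m x) (S.Dc p m x) ≤ 1 := max_le h1 (S.Dc_le_one p m x)
  have h3 : S.A p m x ≤ S.A p m x / max (S.A p m x) (S.Dc p m x) := by
    calc S.A p m x = S.A p m x / 1 := by rw [div_one]
      _ ≤ _ := ENNReal.div_le_div_left h2 _
  calc S.A p m x = S.A p m x ^ (1 : ℝ) := by rw [ENNReal.rpow_one]
    _ ≤ S.A p m x ^ S.th := ENNReal.rpow_le_rpow_of_exponent_ge h1 S.hth1.le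
    _ ≤ _ := ENNReal.rpow_le_rpow h3 S.hth.le

/-- **own level**: the slope at the larger mass -/
lemma sw_mul_Dl_le {p : List ℕ} {m : ℕ} {x : E} (hr : S.mv.IsRot m) (hm : m < S.mT)
    (h : x ∉ S.Z p m) (h0 : S.hf p m x ≤ S.A p m x / 4)
    (h1 : S.hf p (m + 1) x ≤ S.A p m x / 4) :
    S.sw p m x * S.Dl p m x ≤ 8 * S.xd p m x := by
  unfold xd sw slp
  rw [← mul_assoc]
  refine mul_le_mul' ?_ le_rfl
  set A := S.A p m x with hA
  set D := S.Dc p m x with hD
  set s := max (S.F p m x) (S.F p (m + 1) x) with hs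
  have hA1 : A ≤ 1 := A_le_one_o h
  have hA0 : A ≠ 0 := (S.A_pos p m x).ne'
  have hAt : A ≠ ⊤ := S.A_ne_top p m x
  have hD1 : D ≤ 1 := S.Dc_le_one p m x
  have e0 : S.De p m x ≤ s + A / 4 := by
    have a1 : S.De p m x ≤ S.F p m x + (S.De p m x - S.F p m x) := le_add_tsub
    have a2 : S.De p m x - S.F p m x ≤ A / 4 := le_trans le_add_self h0
    exact a1.trans (add_le_add (le_max_left _ _) a2)
  have e1 : S.De p (m + 1) x ≤ s + A / 4 := by
    have a1 : S.De p (m + 1) x ≤ S.F p (m + 1) x + (S.De p (m + 1) x - S.F p (m + 1) x) :=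
      le_add_tsub
    have a2 : S.De p (m + 1) x - S.F p (m + 1) x ≤ A / 4 := le_trans le_add_self h1
    exact a1.trans (add_le_add (le_max_right _ _) a2)
  have e2 : D ≤ 2 * s + A := by
    refine (S.Dc_le_De_add_De (Or.inr hr) x).trans ((add_le_add e0 e1).trans ?_)
    have a3 : A / 4 ≤ A / 2 := ENNReal.div_le_div_left (by norm_num) _
    calc s + A / 4 + (s + A / 4) ≤ s + A / 2 + (s + A / 2) := by gcongr
      _ = 2 * s + (A / 2 + A / 2) := by ring
      _ = 2 * s + A := by rw [ENNReal.add_halves]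
  -- the main comparison
  have e3 : max A D ≤ 8 * max A (min s (1 / 8)) := by
    have h8 : (8 : ℝ≥0∞) * (1 / 8) = 1 := by
      rw [one_div]; exact ENNReal.mul_inv_cancel (by norm_num) (by norm_num)
    rcases le_total s (1 / 8) with hs8 | hs8
    · rw [min_eq_left hs8]
      refine max_le ?_ (e2.trans ?_)
      · calc A = 1 * A := (one_mul _).symm
          _ ≤ 8 * max A s := mul_le_mul' (by norm_num) (le_max_left _ _)
      · calc 2 * s + A ≤ 2 * max A s + max A s := by
              gcongr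
              · exact le_max_right _ _
              · exact le_max_left _ _
          _ = 3 * max A s := by ring
          _ ≤ 8 * max A s := mul_le_mul' (by norm_num) le_rfl
    · rw [min_eq_right hs8]
      refine (max_le hA1 hD1).trans ?_
      calc (1 : ℝ≥0∞) = 8 * (1 / 8) := h8.symm
        _ ≤ 8 * max A (1 / 8) := mul_le_mul' le_rfl (le_max_right _ _)
  have e4 : A / max A (min s (1 / 8)) ≤ 8 * (A / max A D) := by
    refine ENNReal.div_le_of_le_mul ?_
    have hmx : max A D ≠ 0 := (lt_of_lt_of_le (pos_iff_ne_zero.2 hA0) (le_max_left _ _)).ne'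
    have hmt : max A D ≠ ⊤ := (lt_of_le_of_lt (max_le hA1 hD1) ENNReal.one_lt_top).ne
    calc A = A / max A D * max A D := (ENNReal.div_mul_cancel hmx hmt).symm
      _ ≤ A / max A D * (8 * max A (min s (1 / 8))) := by gcongr
      _ = _ := by ring
  calc (A / max A (min s (1 / 8))) ^ S.th ≤ (8 * (A / max A D)) ^ S.th :=
        ENNReal.rpow_le_rpow e4 S.hth.le
    _ = 8 ^ S.th * (A / max A D) ^ S.th := ENNReal.mul_rpow_of_nonneg _ _ S.hth.le
    _ ≤ 8 * (A / max A D) ^ S.th := by
      gcongr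
      calc (8 : ℝ≥0∞) ^ S.th ≤ 8 ^ (1 : ℝ) :=
            ENNReal.rpow_le_rpow_of_exponent_le (by norm_num) S.hth1.le
        _ = 8 := ENNReal.rpow_one _

/-! ### nodes which do not see the rotation -/

lemma Dl_of_not {m : ℕ} (h : S.mv.IsRot m) {p : List ℕ} (hp : ¬ S.mv.jj m <:+ p) (x : E) :
    S.Dl p m x = 0 := by
  rw [S.Dl_active (Or.inr h), S.X_rot_not h hp, symmDiff_self]
  simp only [Set.bot_eq_empty, indicator_empty]
  exact fib_const (S.W p m) 0 x

lemma L1_of_not {m : ℕ} (h : S.mv.IsRot m) (hm : m < S.mT) {p : List ℕ}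
    (hlen : (S.mv.jj m).length ≤ p.length) (hp : ¬ S.mv.jj m <:+ p) (x : E) :
    S.L1 p m x = 0 := by
  have h1 := L1_le h hm (Module.finrank ℝ E) p (by omega) hlen x
  have h2 : ∀ k, S.tO k p m = fun _ => 0 := by
    intro k
    funext y
    refine le_antisymm ((tO_le k p y).trans (le_of_eq ?_)) zero_le
    rw [Dl_of_not h (fun hh => hp (List.suffix_of_suffix_length_le hh (suffix_nb p m y k) hlen)),
      mul_zero, mul_zero]
  have h3 : ∀ k, fib (S.W p m) (S.tO (k + 1) p m) x = 0 := by
    intro k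
    rw [h2]
    exact fib_const (S.W p m) 0 x
  simp only [Dl_of_not h hp, h3, mul_zero, Finset.sum_const_zero, add_zero] at h1
  exact le_antisymm h1 zero_le

/-! ### leaves -/

lemma Leaf.mono_o {p q : List ℕ} (h : p <:+ q) {m : ℕ} (hl : S.Leaf p m) : S.Leaf q m := by
  unfold Leaf at *
  exact (Submodule.finrank_mono (Submodule.orthogonal_le (S.W_mono h m))).trans hl

/-! ### the bound -/

/-- **(ROTO)** -/
theorem roto_of {G : List ℕ → ℕ → E → ℝ≥0∞}
    (hG : ∀ m < S.mT, S.mv.IsRot m → ∀ p x, (S.mv.jj m).length ≤ p.length →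
      G p m x ≤ S.L1 p m x) (hc : S.CLOSE) : S.ROTO G (8 * (S.M + 1)) 2 := by
  intro m hm hr j hj l hjl hl
  have hM := S.hM
  have htm : S.mv.tm m < S.T := S.tm_lt_f hm.le
  set n := S.nl - l with hn
  set B : ℕ → ℝ≥0∞ := fun k => ENNReal.ofReal (16 * (S.M + 1) * 2 ^ k) with hB
  set s := S.thru (j + 1) m ∩ S.OL l m with hs
  have hsm : MeasurableSet s := (measurableSet_thru_o (j + 1) m).inter (measurableSet_OL l m)
  have hsl : S.LabS l m s := labS_thru_OL htm hjl
  -- pointwise
  have hpt : ∀ x, iw (S.omj l m ∩ S.inn l m) x * (S.sw (S.nd m x l) m x * G (S.nd m x l) m x) ≤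
      8 * (iw (S.thru (j + 1) m ∩ S.OL (j + 1) m ∩ S.alj (j + 1) l m) x * S.xd (S.nd m x l) m x)
      + ∑ k ∈ Finset.range n, B k * (iw s x
        * fib (S.W (S.nd m x l) m) (S.tO (k + 1) (S.nd m x l) m) x) := by
    intro x
    by_cases hx : x ∈ S.omj l m ∩ S.inn l m
    swap
    · unfold iw
      rw [indicator_of_notMem hx, zero_mul]
      exact zero_le
    set p := S.nd m x l with hp
    have hlen : (S.mv.jj m).length ≤ p.length := by rw [hp, length_nd, hj]; exact hjl
    have hGx := hG m hm hr p x hlen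
    obtain ⟨⟨⟨hNL, hOL⟩, hom⟩, hinn⟩ := hx
    by_cases hth : x ∈ S.thru (j + 1) m
    swap
    · have hns : ¬ S.mv.jj m <:+ p := by
        intro hsuf
        apply hth
        have h1 : S.nd m x (j + 1) <:+ S.nd m x l := nd_suffix_nd m x hjl
        have h2 : S.nd m x (j + 1) <:+ S.mv.jj m :=
          List.suffix_of_suffix_length_le h1 hsuf (by rw [length_nd, hj])
        exact h2.eq_of_length (by rw [length_nd, hj])
      rw [L1_of_not hr hm hlen hns] at hGx
      have : G p m x = 0 := le_antisymm hGx zero_le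
      rw [this, mul_zero, mul_zero]
      exact zero_le
    have hZ : x ∉ S.Z p m := hom.1
    have hxs : x ∈ s := ⟨hth, hOL⟩
    have hxs2 : x ∈ S.thru (j + 1) m ∩ S.OL (j + 1) m ∩ S.alj (j + 1) l m := by
      refine ⟨⟨hth, fun i hi => hOL i (by omega)⟩, fun k hk1 hk2 => ⟨?_, ?_⟩⟩
      · exact fun hh => hZ (S.Z_mono (nd_suffix_nd m x hk2.le) m hh)
      · exact fun hh => hNL (Leaf.mono_o (nd_suffix_nd m x hk2.le) hh)
    have hc0 : S.hf p m x ≤ S.A p m x / 4 := hc l hl m hm.le x hZ
    have hc1 : S.hf p (m + 1) x ≤ S.A p m x / 4 := by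
      have hnd : S.nd (m + 1) x l = p := nb_succ_o (Or.inr hr) hm [] x l
      have hZ' : x ∉ S.Z (S.nd (m + 1) x l) (m + 1) := by
        rw [hnd, Z_succ_o (Or.inr hr) hm]; exact hZ
      have := hc l hl (m + 1) hm x hZ'
      rwa [hnd, A_succ_o (Or.inr hr) hm] at this
    have hL := L1_le hr hm n p (by rw [hp, length_nd]; unfold nl at hn; omega) hlen x
    have h8 := sw_mul_Dl_le hr hm hZ hc0 hc1
    have hsw : S.sw p m x ≤ 1 := slp_le_one_o p m x _
    unfold iw
    rw [indicator_of_mem (show x ∈ S.omj l m ∩ S.inn l m from ⟨⟨⟨hNL, hOL⟩, hom⟩, hinn⟩),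
      indicator_of_mem hxs, indicator_of_mem hxs2]
    simp only [Pi.one_apply, one_mul]
    calc S.sw p m x * G p m x ≤ S.sw p m x * (S.Dl p m x + ∑ k ∈ Finset.range n,
          B k * fib (S.W p m) (S.tO (k + 1) p m) x) := by gcongr; exact hGx.trans hL
      _ = S.sw p m x * S.Dl p m x + S.sw p m x * ∑ k ∈ Finset.range n,
          B k * fib (S.W p m) (S.tO (k + 1) p m) x := by rw [mul_add]
      _ ≤ 8 * S.xd p m x + 1 * ∑ k ∈ Finset.range n,
          B k * fib (S.W p m) (S.tO (k + 1) p m) x := add_le_add h8 (mul_le_mul' hsw le_rfl)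
      _ = _ := by rw [one_mul]
  have hmk : ∀ k, Measurable fun x => B k * (iw s x
        * fib (S.W (S.nd m x l) m) (S.tO (k + 1) (S.nd m x l) m) x) := by
    intro k
    refine Measurable.const_mul ?_ _
    refine Measurable.mul (measurable_one.indicator hsm) ?_
    exact measurable_nd (S := S) m l (F := fun r x => fib (S.W r m) (S.tO (k + 1) r m) x)
      (fun r => measurable_fib (measurable_tO m (k + 1) r))
  have hms : Measurable fun x => ∑ k ∈ Finset.range n, B k * (iw s x
        * fib (S.W (S.nd m x l) m) (S.tO (k + 1) (S.nd m x l) m) x) :=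
    Finset.measurable_sum _ fun k _ => hmk k
  -- the terms below
  have hterm : ∀ k, ∫⁻ x, B k * (iw s x
        * fib (S.W (S.nd m x l) m) (S.tO (k + 1) (S.nd m x l) m) x) ∂stdGaussian E
      ≤ B k * S.thq (j + 1) (l + (k + 1)) m := by
    intro k
    rw [lintegral_const_mul' _ _ ENNReal.ofReal_ne_top,
      int_lab_fib htm hsm hsl (F := fun r => S.tO (k + 1) r m) (fun r => measurable_tO m (k + 1) r)]
    refine mul_le_mul' le_rfl (lintegral_mono fun x => ?_)
    show iw s x * S.tO (k + 1) (S.nd m x l) m x ≤ _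
    by_cases hx : x ∈ s
    swap
    · unfold iw
      rw [indicator_of_notMem hx, zero_mul]
      exact zero_le
    have h1 := tO_le (S := S) (m := m) (k + 1) (S.nd m x l) x
    by_cases hy : x ∈ {y | y ∉ S.Z (S.nb (S.nd m x l) m y (k + 1)) m ∧
        ∀ i < k + 1, ¬ S.Leaf (S.nb (S.nd m x l) m y i) m}
    swap
    · have h2 : iw {y | y ∉ S.Z (S.nb (S.nd m x l) m y (k + 1)) m ∧
        ∀ i < k + 1, ¬ S.Leaf (S.nb (S.nd m x l) m y i) m} x = 0 := by
        unfold iw; exact indicator_of_notMem hy _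
      rw [h2, zero_mul] at h1
      rw [le_antisymm h1 zero_le, mul_zero]
      exact zero_le
    obtain ⟨hy1, hy2⟩ := hy
    have e1 : S.nd m x (l + (k + 1)) = S.nb (S.nd m x l) m x (k + 1) := nd_add m x l (k + 1)
    have hxs3 : x ∈ S.thru (j + 1) m ∩ S.OL (j + 1) m ∩ S.alj (j + 1) (l + (k + 1)) m := by
      refine ⟨⟨hx.1, fun i hi => hx.2 i (by omega)⟩, fun i hi1 hi2 => ⟨?_, ?_⟩⟩
      · intro hh
        apply hy1
        rw [← e1]
        exact S.Z_mono (nd_suffix_nd m x hi2.le) m hh
      · intro hh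
        refine hy2 k (by omega) ?_
        rw [← nd_add]
        exact Leaf.mono_o (nd_suffix_nd m x (by omega)) hh
    have h3 : S.tO (k + 1) (S.nd m x l) m x ≤ S.xd (S.nd m x (l + (k + 1))) m x := by
      refine h1.trans ?_
      have h4 : iw {y | y ∉ S.Z (S.nb (S.nd m x l) m y (k + 1)) m ∧
        ∀ i < k + 1, ¬ S.Leaf (S.nb (S.nd m x l) m y i) m} x ≤ 1 := by
        unfold iw; exact indicator_le_self' (fun _ _ => zero_le) x
      rw [e1]
      calc _ ≤ 1 * (S.A (S.nb (S.nd m x l) m x (k + 1)) m x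
            * S.Dl (S.nb (S.nd m x l) m x (k + 1)) m x) := mul_le_mul' h4 le_rfl
        _ ≤ _ := by rw [one_mul]; exact A_mul_Dl_le_xd hy1
    unfold iw
    rw [indicator_of_mem hx, indicator_of_mem hxs3]
    exact mul_le_mul' le_rfl h3
  -- sum up
  calc S.Pt G l m ≤ ∫⁻ x, (8 * (iw (S.thru (j + 1) m ∩ S.OL (j + 1) m ∩ S.alj (j + 1) l m) x
          * S.xd (S.nd m x l) m x)
        + ∑ k ∈ Finset.range n, B k * (iw s x
          * fib (S.W (S.nd m x l) m) (S.tO (k + 1) (S.nd m x l) m) x)) ∂stdGaussian E := by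
        unfold Pt
        exact lintegral_mono hpt
    _ = ∫⁻ x, 8 * (iw (S.thru (j + 1) m ∩ S.OL (j + 1) m ∩ S.alj (j + 1) l m) x
          * S.xd (S.nd m x l) m x) ∂stdGaussian E
        + ∫⁻ x, ∑ k ∈ Finset.range n, B k * (iw s x
          * fib (S.W (S.nd m x l) m) (S.tO (k + 1) (S.nd m x l) m) x) ∂stdGaussian E :=
        lintegral_add_right _ hms
    _ ≤ 8 * S.thq (j + 1) l m + ∑ k ∈ Finset.range n, B k * S.thq (j + 1) (l + (k + 1)) m := by
        refine add_le_add (le_of_eq ?_) ?_
        · rw [lintegral_const_mul' _ _ (by norm_num)]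
          rfl
        · rw [lintegral_finset_sum _ fun k _ => hmk k]
          exact Finset.sum_le_sum fun k _ => hterm k
    _ ≤ _ := by
        have hIcc : Finset.Icc l S.nl = insert l ((Finset.range n).image fun k => l + (k + 1)) := by
          ext i
          simp only [Finset.mem_Icc, Finset.mem_insert, Finset.mem_image, Finset.mem_range]
          constructor
          · rintro ⟨h1, h2⟩
            rcases h1.eq_or_lt with h3 | h3
            · exact Or.inl h3.symm
            · exact Or.inr ⟨i - l - 1, by omega, by omega⟩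
          · rintro (rfl | ⟨k, h1, rfl⟩) <;> omega
        have hnot : l ∉ (Finset.range n).image fun k => l + (k + 1) := by
          simp only [Finset.mem_image, Finset.mem_range, not_exists, not_and]
          intro k _ hk
          omega
        rw [hIcc, Finset.sum_insert hnot, Finset.sum_image (by intro a _ b _ hab; simp only at hab; omega)]
        refine add_le_add ?_ (Finset.sum_le_sum fun k _ => ?_)
        · refine mul_le_mul' ?_ le_rfl
          rw [Nat.sub_self, pow_zero, mul_one]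
          calc (8 : ℝ≥0∞) = ENNReal.ofReal 8 := by norm_num
            _ ≤ _ := ENNReal.ofReal_le_ofReal (by linarith)
        · refine mul_le_mul' ?_ le_rfl
          rw [hB]
          refine ENNReal.ofReal_le_ofReal ?_
          rw [show l + (k + 1) - l = k + 1 by omega, pow_succ]
          have : (0 : ℝ) < 2 ^ k := by positivity
          nlinarith

end Vale.Agent.P262.M2.Sys
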