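import Mathlib

/-!
# P262, milestone 2: states ZERO / OWN of one label (hysteresis) and their runs

`D i` : fibre mass of the complement at the elementary states `i`, `r i` : inflow at the step
`i → i+1`, `w k` : boundaries of the coarse windows, `Z k` : the window `k` is ZERO.
-/

set_option linter.all false

open Finset

namespace Vale.Agent.P262.H633

/-- inflow up to the state `m` (only at states with `D < 1/5`) -/
noncomputable def infl (D r : ℕ → ℝ) (m : ℕ) : ℝ :=
  ∑ i ∈ range m, if D i < 1 / 5 then r i else 0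

/-- the hysteresis rule -/
structure Hyst (D : ℕ → ℝ) (w : ℕ → ℕ) (Z : ℕ → Prop) : Prop where
  zero : Z 0 ↔ ∃ i, w 0 ≤ i ∧ i ≤ w 1 ∧ 1 / 10 ≤ D i
  succ : ∀ k, Z (k + 1) ↔ (∃ i, w (k + 1) ≤ i ∧ i ≤ w (k + 2) ∧ 1 / 5 ≤ D i) ∨
    (Z k ∧ ∃ i, w (k + 1) ≤ i ∧ i ≤ w (k + 2) ∧ 1 / 10 ≤ D i)

/-- hypotheses on one label -/
structure Lab (D r : ℕ → ℝ) (w : ℕ → ℕ) : Prop where
  nonneg : ∀ i, 0 ≤ D i
  le_one : ∀ i, D i ≤ 1
  rnn : ∀ i, 0 ≤ r i
  mono : Monotone w
  rise : ∀ i, D i < 1 / 5 → D (i + 1) ≤ D i + r i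

variable {D r : ℕ → ℝ} {w : ℕ → ℕ} {Z : ℕ → Prop}

/-- rule (F): on OWN windows the label is healthy -/
theorem Hyst.own (h : Hyst D w Z) {k : ℕ} (hk : ¬ Z k) {i : ℕ} (h1 : w k ≤ i)
    (h2 : i ≤ w (k + 1)) : D i < 1 / 5 := by
  cases k with
  | zero =>
    have := mt h.zero.mpr hk
    push Not at this
    linarith [this i h1 h2]
  | succ k =>
    have := mt (h.succ k).mpr hk
    push Not at this
    exact this.1 i h1 h2

theorem Hyst.own_after (h : Hyst D w Z) {k : ℕ} (hk : Z k) (hk1 : ¬ Z (k + 1)) {i : ℕ}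
    (h1 : w (k + 1) ≤ i) (h2 : i ≤ w (k + 2)) : D i < 1 / 10 := by
  have := mt (h.succ k).mpr hk1
  push Not at this
  exact this.2 hk i h1 h2

theorem Hyst.own_zero (h : Hyst D w Z) (hk : ¬ Z 0) {i : ℕ} (h1 : w 0 ≤ i) (h2 : i ≤ w 1) :
    D i < 1 / 10 := by
  have := mt h.zero.mpr hk
  push Not at this
  exact this i h1 h2

/-- on ZERO windows the label was sick at some state -/
theorem Hyst.sick (h : Hyst D w Z) {k : ℕ} (hk : Z k) :
    ∃ i, w k ≤ i ∧ i ≤ w (k + 1) ∧ 1 / 10 ≤ D i := by
  cases k with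
  | zero => exact h.zero.mp hk
  | succ k =>
    rcases (h.succ k).mp hk with ⟨i, h1, h2, h3⟩ | ⟨_, i, h1, h2, h3⟩
    · exact ⟨i, h1, h2, by linarith⟩
    · exact ⟨i, h1, h2, h3⟩

lemma infl_succ (D r : ℕ → ℝ) (m : ℕ) :
    infl D r (m + 1) = infl D r m + if D m < 1 / 5 then r m else 0 := by
  unfold infl
  rw [sum_range_succ]

lemma infl_mono (hL : Lab D r w) : Monotone (infl D r) := by
  refine monotone_nat_of_le_succ fun m => ?_
  rw [infl_succ]
  have : 0 ≤ if D m < 1 / 5 then r m else 0 := by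
    split_ifs
    · exact hL.rnn m
    · exact le_rfl
  linarith

lemma infl_nonneg (hL : Lab D r w) (m : ℕ) : 0 ≤ infl D r m := by
  have := infl_mono hL (Nat.zero_le m)
  have h0 : infl D r 0 = 0 := by simp [infl]
  linarith

/-- the excess over `1/10` is controlled by the inflow as long as `D < 1/5` -/
lemma rise_excess (hL : Lab D r w) {a C : ℝ} {s : ℕ}
    (h0 : C + max 0 (D s - a) ≤ infl D r s) :
    ∀ n, (∀ i, s ≤ i → i < s + n → D i < 1 / 5) → C + max 0 (D (s + n) - a) ≤ infl D r (s + n) := by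
  intro n
  induction n with
  | zero => intro _; simpa using h0
  | succ n ih =>
    intro hlt
    have ih' := ih fun i h1 h2 => hlt i h1 (by omega)
    have h1 : D (s + n) < 1 / 5 := hlt _ (by omega) (by omega)
    have h2 := hL.rise _ h1
    have h3 := infl_succ D r (s + n)
    rw [if_pos h1] at h3
    have h4 : s + (n + 1) = s + n + 1 := by omega
    rw [h4, h3]
    have h5 : max 0 (D (s + n + 1) - a) ≤ max 0 (D (s + n) - a) + r (s + n) := by
      have := hL.rnn (s + n)
      rcases le_total 0 (D (s + n) - a) with h6 | h6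
      · rw [max_eq_right h6]
        exact max_le (by linarith) (by linarith)
      · rw [max_eq_left h6]
        exact max_le (by linarith) (by linarith)
    linarith

open Classical in
/-- number of runs completed before the window `k` starts -/
noncomputable def cmp (Z : ℕ → Prop) (k : ℕ) : ℝ :=
  ∑ j ∈ range k, if Z j ∧ ¬ Z (j + 1) then (1 : ℝ) else 0

lemma cmp_succ (Z : ℕ → Prop) (k : ℕ) [Decidable (Z k ∧ ¬ Z (k + 1))] :
    cmp Z (k + 1) = cmp Z k + if Z k ∧ ¬ Z (k + 1) then (1 : ℝ) else 0 := by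
  unfold cmp
  rw [sum_range_succ]
  congr

lemma cmp_nonneg (Z : ℕ → Prop) (k : ℕ) : 0 ≤ cmp Z k := by
  unfold cmp
  exact sum_nonneg fun j _ => by split_ifs <;> norm_num

theorem inv (hL : Lab D r w) (hH : Hyst D w Z) : ∀ k,
    (Z k → cmp Z k ≤ 10 * infl D r (w (k + 1))) ∧
    (¬ Z k → cmp Z k = 0 ∨
      cmp Z k / 10 - 1 / 10 + max 0 (D (w (k + 1)) - 1 / 10) ≤ infl D r (w (k + 1))) := by
  classical
  intro k
  induction k with
  | zero =>
    have h0 : cmp Z 0 = 0 := by simp [cmp]
    refine ⟨fun _ => ?_, fun _ => Or.inl h0⟩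
    rw [h0]
    have := infl_nonneg hL (w 1)
    simpa using this
  | succ k ih =>
    have hw : w (k + 1) ≤ w (k + 2) := hL.mono (by omega)
    have hm : infl D r (w (k + 1)) ≤ infl D r (w (k + 2)) := infl_mono hL hw
    have hc := cmp_succ Z k
    by_cases hk : Z k
    · have ih1 := ih.1 hk
      constructor
      · intro hk1
        rw [if_neg (by tauto)] at hc
        have : k + 1 + 1 = k + 2 := rfl
        rw [this]
        linarith
      · intro hk1
        right
        rw [if_pos ⟨hk, hk1⟩] at hc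
        have hD : D (w (k + 2)) < 1 / 10 := hH.own_after hk hk1 hw le_rfl
        have h3 : max 0 (D (w (k + 1 + 1)) - 1 / 10) = 0 := max_eq_left (by
          have : k + 1 + 1 = k + 2 := rfl
          rw [this]
          linarith)
        rw [h3, hc]
        have : k + 1 + 1 = k + 2 := rfl
        rw [this]
        linarith
    · have ih2 := ih.2 hk
      rw [if_neg (by tauto)] at hc
      rw [add_zero] at hc
      constructor
      · intro hk1
        -- first state with `1/5 ≤ D`
        have hex : ∃ i, w (k + 1) ≤ i ∧ i ≤ w (k + 2) ∧ 1 / 5 ≤ D i := by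
          rcases (hH.succ k).mp hk1 with h | h
          · exact h
          · exact absurd h.1 hk
        rcases ih2 with h0 | h0
        · rw [hc, h0]
          have := infl_nonneg hL (w (k + 1 + 1))
          linarith
        · obtain ⟨i, ⟨h1, h2, h3⟩, hmin⟩ := WellFounded.has_min Nat.lt_wfRel.wf
            {i | w (k + 1) ≤ i ∧ i ≤ w (k + 2) ∧ 1 / 5 ≤ D i} hex
          have hlt : ∀ j, w (k + 1) ≤ j → j < w (k + 1) + (i - w (k + 1)) → D j < 1 / 5 := by
            intro j hj1 hj2
            by_contra hcon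
            exact hmin j ⟨hj1, by omega, not_lt.mp hcon⟩ (show j < i by omega)
          have h4 := rise_excess hL h0 (i - w (k + 1)) hlt
          have h5 : w (k + 1) + (i - w (k + 1)) = i := by omega
          rw [h5] at h4
          have h6 : (1 : ℝ) / 10 ≤ max 0 (D i - 1 / 10) := le_max_of_le_right (by linarith)
          have h7 : infl D r i ≤ infl D r (w (k + 2)) := infl_mono hL h2
          have : k + 1 + 1 = k + 2 := rfl
          rw [this, hc]
          linarith
      · intro hk1
        rcases ih2 with h0 | h0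
        · left
          rw [hc, h0]
        · right
          have hlt : ∀ j, w (k + 1) ≤ j → j < w (k + 1) + (w (k + 2) - w (k + 1)) →
              D j < 1 / 5 := by
            intro j hj1 hj2
            exact hH.own hk1 hj1 (by
              have : k + 1 + 1 = k + 2 := rfl
              rw [this]
              omega)
          have h4 := rise_excess hL h0 (w (k + 2) - w (k + 1)) hlt
          have h5 : w (k + 1) + (w (k + 2) - w (k + 1)) = w (k + 2) := by omega
          rw [h5] at h4
          have : k + 1 + 1 = k + 2 := rfl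
          rw [this, hc]
          exact h4

open Classical in
lemma cmp_le (hL : Lab D r w) (hH : Hyst D w Z) (k : ℕ) :
    cmp Z k ≤ (if Z k then (0 : ℝ) else 1) + 10 * infl D r (w (k + 1)) := by
  have h := inv hL hH k
  have hn := infl_nonneg hL (w (k + 1))
  by_cases hk : Z k
  · rw [if_pos hk]
    linarith [h.1 hk]
  · rw [if_neg hk]
    rcases h.2 hk with h0 | h0
    · rw [h0]
      linarith
    · have := le_max_left 0 (D (w (k + 1)) - 1 / 10)
      linarith

open Classical in
/-- number of maximal ZERO runs among the windows `0..p` -/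
theorem runs_card (hL : Lab D r w) (hH : Hyst D w Z) (p : ℕ) :
    cmp Z p + (if Z p then (1 : ℝ) else 0) ≤ 1 + 10 * infl D r (w (p + 1)) := by
  have h := cmp_le hL hH p
  split_ifs at h ⊢ <;> linarith

open Classical in
/-- `Σ_runs q(end of run) ≤ (5/4) q(end) + 10 inflow`, `q = 1 - D`, windows `0..p` -/
theorem runs_sum (hL : Lab D r w) (hH : Hyst D w Z) (p : ℕ) :
    (∑ j ∈ range p, if Z j ∧ ¬ Z (j + 1) then 1 - D (w (j + 1)) else 0)
      + (if Z p then 1 - D (w (p + 1)) else 0)
      ≤ 5 / 4 * (1 - D (w (p + 1))) + 10 * infl D r (w (p + 1)) := by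
  have h1 : (∑ j ∈ range p, if Z j ∧ ¬ Z (j + 1) then 1 - D (w (j + 1)) else 0) ≤ cmp Z p := by
    unfold cmp
    refine sum_le_sum fun j _ => ?_
    split_ifs
    · linarith [hL.nonneg (w (j + 1))]
    · exact le_rfl
  have h := cmp_le hL hH p
  have hq : 0 ≤ 1 - D (w (p + 1)) := by linarith [hL.le_one (w (p + 1))]
  by_cases hp : Z p
  · rw [if_pos hp] at h ⊢
    linarith
  · rw [if_neg hp] at h ⊢
    have := hH.own hp (hL.mono (Nat.le_succ p)) le_rfl
    linarith

/-- a label that is ever ZERO had `D_start ≥ 1/20` or inflow at least `1/20` -/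
theorem ever_zero (hL : Lab D r w) (hH : Hyst D w Z) {p k : ℕ} (hk : k ≤ p) (hZ : Z k) :
    1 ≤ 20 * D (w 0) + 20 * (infl D r (w (p + 1)) - infl D r (w 0)) := by
  obtain ⟨i0, h1, h2, h3⟩ := hH.sick hZ
  have hex : ∃ i, w 0 ≤ i ∧ i ≤ w (p + 1) ∧ 1 / 10 ≤ D i :=
    ⟨i0, (hL.mono (Nat.zero_le k)).trans h1, h2.trans (hL.mono (by omega)), h3⟩
  obtain ⟨i, ⟨g1, g2, g3⟩, hmin⟩ := WellFounded.has_min Nat.lt_wfRel.wf
    {i | w 0 ≤ i ∧ i ≤ w (p + 1) ∧ 1 / 10 ≤ D i} hex
  have hlt : ∀ j, w 0 ≤ j → j < w 0 + (i - w 0) → D j < 1 / 5 := by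
    intro j hj1 hj2
    by_contra hcon
    exact hmin j ⟨hj1, by omega, by linarith [not_lt.mp hcon]⟩ (show j < i by omega)
  have h0 : infl D r (w 0) - D (w 0) + max 0 (D (w 0) - 0) ≤ infl D r (w 0) := by
    rw [sub_zero, max_eq_right (hL.nonneg _)]
    linarith
  have h4 := rise_excess hL h0 (i - w 0) hlt
  have h5 : w 0 + (i - w 0) = i := by omega
  rw [h5] at h4
  have h6 : D i ≤ max 0 (D i - 0) := le_max_of_le_right (by linarith)
  have h7 : infl D r i ≤ infl D r (w (p + 1)) := infl_mono hL g2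
  by_cases h8 : 1 / 20 ≤ D (w 0)
  · have := infl_mono hL (hL.mono (Nat.zero_le (p + 1)))
    linarith
  · linarith [not_le.mp h8]

end Vale.Agent.P262.H633
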