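import Vale.Agent.P262.H633.Runs

/-!
# P262, milestone 2: hysteresis with a general rise bound

Version of `Runs` (a star step may raise `D` a little because of the ball cut on killed lines; the
rise is controlled only over complete OWN windows, by the counted inflow, plus one partial window):
`D t ≤ D (w m) + (I t - I (w m)) + η` for a state `t` of the window `n ≥ m`, if the windows `m..n-1`
are OWN and `D < 1/5` on `[w m, t)`; `I` monotone (counted inflow), `η ≤ 1/20`.
-/

set_option linter.all false

open Finset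

namespace Vale.Agent.P262.H633

/-- hypotheses on one label, window form -/
structure LabI (D I : ℕ → ℝ) (w : ℕ → ℕ) (Z : ℕ → Prop) (η : ℝ) : Prop where
  nonneg : ∀ i, 0 ≤ D i
  le_one : ∀ i, D i ≤ 1
  imono : Monotone I
  mono : Monotone w
  η0 : 0 ≤ η
  η1 : η ≤ 1 / 20
  rise : ∀ m n t, m ≤ n → w n ≤ t → t ≤ w (n + 1) → (∀ k, m ≤ k → k < n → ¬ Z k) →
    (∀ i, w m ≤ i → i < t → D i < 1 / 5) → D t ≤ D (w m) + (I t - I (w m)) + η

variable {D I : ℕ → ℝ} {w : ℕ → ℕ} {Z : ℕ → Prop} {η : ℝ}

/-- the inputs window by window: over a complete OWN window `max θ D` rises at most by the inflow,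
inside any window the healthy label rises at most by the inflow plus `p` -/
theorem LabI.of_windows {θ p : ℝ} (h0 : ∀ i, 0 ≤ D i) (h1 : ∀ i, D i ≤ 1) (hI : Monotone I)
    (hw : Monotone w) (hθ : 0 ≤ θ) (hp : 0 ≤ p) (hη : θ + p ≤ 1 / 20)
    (own : ∀ k, ¬ Z k → D (w (k + 1)) ≤ max θ (D (w k)) + (I (w (k + 1)) - I (w k)))
    (part : ∀ n t, w n ≤ t → t ≤ w (n + 1) → (∀ i, w n ≤ i → i < t → D i < 1 / 5) →
      D t ≤ max θ (D (w n)) + (I t - I (w n)) + p) : LabI D I w Z (θ + p) := by
  refine ⟨h0, h1, hI, hw, by linarith, hη, ?_⟩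
  intro m n t hmn ht1 ht2 hZ hD
  have key : ∀ j, m + j ≤ n → max θ (D (w (m + j))) ≤ max θ (D (w m)) + (I (w (m + j)) - I (w m)) := by
    intro j
    induction j with
    | zero =>
      intro _
      simp
    | succ j ih =>
      intro hj
      have ih' := ih (by omega)
      have h2 := own (m + j) (hZ _ (by omega) (by omega))
      have h3 : I (w (m + j)) ≤ I (w (m + j + 1)) := hI (hw (by omega))
      have h4 : m + (j + 1) = m + j + 1 := rfl
      have h5 : θ ≤ max θ (D (w (m + j))) := le_max_left _ _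
      rw [h4]
      refine max_le ?_ ?_
      · linarith
      · linarith
  have h6 := key (n - m) (by omega)
  have h7 : m + (n - m) = n := by omega
  rw [h7] at h6
  have h8 := part n t ht1 ht2 fun i hi1 hi2 => hD i ((hw hmn).trans hi1) hi2
  have h9 : max θ (D (w m)) ≤ D (w m) + θ := max_le (by linarith [h0 (w m)]) (by linarith)
  linarith

/-- completed runs: before the window `k + 1` either no run is completed, or the last ZERO run ended
at `w m`, `D (w m) < 1/10`, the windows `m..k` are OWN, and the increase of `I` up to `w m` pays all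
the completed runs but one -/
theorem inv_I (hL : LabI D I w Z η) (hH : Hyst D w Z) : ∀ k,
    (Z k → cmp Z k ≤ 20 * (I (w (k + 1)) - I (w 0))) ∧
    (¬ Z k → cmp Z k = 0 ∨ ∃ m, m ≤ k ∧ D (w m) < 1 / 10 ∧ (∀ k', m ≤ k' → k' ≤ k → ¬ Z k') ∧
      (∀ i, w m ≤ i → i ≤ w (k + 1) → D i < 1 / 5) ∧ cmp Z k - 1 ≤ 20 * (I (w m) - I (w 0))) := by
  classical
  intro k
  induction k with
  | zero =>
    have h0 : cmp Z 0 = 0 := by simp [cmp]
    refine ⟨fun _ => ?_, fun _ => Or.inl h0⟩
    rw [h0]
    have := hL.imono (hL.mono (Nat.zero_le 1))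
    have h1 : I (w (0 + 1)) = I (w 1) := rfl
    rw [h1]
    linarith
  | succ k ih =>
    have hw : w (k + 1) ≤ w (k + 2) := hL.mono (by omega)
    have hm : I (w (k + 1)) ≤ I (w (k + 2)) := hL.imono hw
    have hc := cmp_succ Z k
    have e2 : k + 1 + 1 = k + 2 := rfl
    by_cases hk : Z k
    · have ih1 := ih.1 hk
      constructor
      · intro hk1
        rw [if_neg (by tauto)] at hc
        rw [e2]
        linarith
      · intro hk1
        right
        rw [if_pos ⟨hk, hk1⟩] at hc
        refine ⟨k + 1, le_rfl, hH.own_after hk hk1 le_rfl hw, ?_, ?_, by linarith⟩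
        · intro k' h1 h2
          have : k' = k + 1 := by omega
          rw [this]
          exact hk1
        · intro i h1 h2
          rw [e2] at h2
          linarith [hH.own_after hk hk1 h1 h2]
    · have ih2 := ih.2 hk
      rw [if_neg (by tauto)] at hc
      rw [add_zero] at hc
      constructor
      · intro hk1
        have hex : ∃ i, w (k + 1) ≤ i ∧ i ≤ w (k + 2) ∧ 1 / 5 ≤ D i := by
          rcases (hH.succ k).mp hk1 with h | h
          · exact h
          · exact absurd h.1 hk
        rcases ih2 with h0 | ⟨m, g1, g3, g2, g4, g5⟩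
        · rw [hc, h0]
          have := hL.imono (hL.mono (show 0 ≤ k + 2 by omega))
          rw [e2]
          linarith
        · obtain ⟨i, ⟨h1, h2, h3⟩, hmin⟩ := WellFounded.has_min Nat.lt_wfRel.wf
            {i | w (k + 1) ≤ i ∧ i ≤ w (k + 2) ∧ 1 / 5 ≤ D i} hex
          have hlt : ∀ j, w m ≤ j → j < i → D j < 1 / 5 := by
            intro j hj1 hj2
            rcases le_total j (w (k + 1)) with h | h
            · exact g4 j hj1 h
            · by_contra hcon
              exact hmin j ⟨h, by omega, not_lt.mp hcon⟩ (show j < i from hj2)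
          have h4 := hL.rise m (k + 1) i (by omega) h1 h2
            (fun k' q1 q2 => g2 k' q1 (by omega)) hlt
          have h5 : I i ≤ I (w (k + 2)) := hL.imono h2
          have h6 := hL.η1
          rw [e2, hc]
          linarith
      · intro hk1
        rcases ih2 with h0 | ⟨m, g1, g3, g2, g4, g5⟩
        · left
          rw [hc, h0]
        · right
          refine ⟨m, by omega, g3, ?_, ?_, by rw [hc]; exact g5⟩
          · intro k' h1 h2
            rcases Nat.lt_or_ge k' (k + 1) with h | h
            · exact g2 k' h1 (by omega)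
            · have : k' = k + 1 := by omega
              rw [this]
              exact hk1
          · intro i h1 h2
            rcases le_total i (w (k + 1)) with h | h
            · exact g4 i h1 h
            · exact hH.own hk1 h h2

open Classical in
lemma cmp_le_I (hL : LabI D I w Z η) (hH : Hyst D w Z) (k : ℕ) :
    cmp Z k ≤ (if Z k then (0 : ℝ) else 1) + 20 * (I (w (k + 1)) - I (w 0)) := by
  have h := inv_I hL hH k
  have hn : I (w 0) ≤ I (w (k + 1)) := hL.imono (hL.mono (Nat.zero_le _))
  by_cases hk : Z k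
  · rw [if_pos hk]
    linarith [h.1 hk]
  · rw [if_neg hk]
    rcases h.2 hk with h0 | ⟨m, g1, g3, g2, g4, g5⟩
    · rw [h0]
      linarith
    · have := hL.imono (hL.mono (show m ≤ k + 1 by omega))
      linarith

open Classical in
/-- number of maximal ZERO runs among the windows `0..p`, interval form -/
theorem runs_card_I (hL : LabI D I w Z η) (hH : Hyst D w Z) (p : ℕ) :
    cmp Z p + (if Z p then (1 : ℝ) else 0) ≤ 1 + 20 * (I (w (p + 1)) - I (w 0)) := by
  have h := cmp_le_I hL hH p
  split_ifs at h ⊢ <;> linarith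

open Classical in
/-- `Σ_runs q(end of run) ≤ (5/4) q(end) + 20 inflow`, interval form -/
theorem runs_sum_I (hL : LabI D I w Z η) (hH : Hyst D w Z) (p : ℕ) :
    (∑ j ∈ range p, if Z j ∧ ¬ Z (j + 1) then 1 - D (w (j + 1)) else 0)
      + (if Z p then 1 - D (w (p + 1)) else 0)
      ≤ 5 / 4 * (1 - D (w (p + 1))) + 20 * (I (w (p + 1)) - I (w 0)) := by
  have h1 : (∑ j ∈ range p, if Z j ∧ ¬ Z (j + 1) then 1 - D (w (j + 1)) else 0) ≤ cmp Z p := by
    unfold cmp
    refine sum_le_sum fun j _ => ?_
    split_ifs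
    · linarith [hL.nonneg (w (j + 1))]
    · exact le_rfl
  have h := cmp_le_I hL hH p
  have hq : 0 ≤ 1 - D (w (p + 1)) := by linarith [hL.le_one (w (p + 1))]
  by_cases hp : Z p
  · rw [if_pos hp] at h ⊢
    linarith
  · rw [if_neg hp] at h ⊢
    have := hH.own hp (hL.mono (Nat.le_succ p)) le_rfl
    linarith

/-- a label that is ever ZERO -/
theorem ever_zero_I (hL : LabI D I w Z η) (hH : Hyst D w Z) {p k : ℕ} (hk : k ≤ p) (hZ : Z k) :
    1 ≤ 20 * D (w 0) + 20 * (I (w (p + 1)) - I (w 0)) := by
  have hη1 := hL.η1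
  -- first ZERO window
  obtain ⟨n, hn, hnmin⟩ := WellFounded.has_min Nat.lt_wfRel.wf {n | Z n} ⟨k, hZ⟩
  have hnk : n ≤ k := by
    by_contra hcon
    exact hnmin k hZ (show k < n by omega)
  have hown : ∀ j, j < n → ¬ Z j := fun j hj hZj => hnmin j hZj (show j < n from hj)
  have hex := hH.sick hn
  obtain ⟨i, ⟨g1, g2, g3⟩, hmin⟩ := WellFounded.has_min Nat.lt_wfRel.wf
    {i | w n ≤ i ∧ i ≤ w (n + 1) ∧ 1 / 10 ≤ D i} hex
  by_cases hbig : ∃ m, m ≤ n ∧ 1 / 10 ≤ D (w m)
  · -- some boundary state with `1/10 ≤ D`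
    obtain ⟨m, ⟨m1, m2⟩, hmm⟩ := WellFounded.has_min Nat.lt_wfRel.wf
      {m | m ≤ n ∧ 1 / 10 ≤ D (w m)} hbig
    have h7 : I (w m) ≤ I (w (p + 1)) := hL.imono (hL.mono (by omega))
    have hlt : ∀ j, w 0 ≤ j → j < w m → D j < 1 / 5 := by
      intro j hj1 hj2
      -- `j` belongs to an OWN window
      have : ∃ q, q < m ∧ w q ≤ j ∧ j ≤ w (q + 1) := by
        by_contra hcon
        push Not at hcon
        have hall : ∀ q, q ≤ m → w q ≤ j := by
          intro q
          induction q with
          | zero => intro _; exact hj1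
          | succ q ih =>
            intro hq
            exact (hcon q (by omega) (ih (by omega))).le
        exact absurd (hall m le_rfl) (by omega)
      obtain ⟨q, q1, q2, q3⟩ := this
      exact hH.own (hown q (by omega)) q2 q3
    cases m with
    | zero =>
      have h8 : I (w 0) ≤ I (w (p + 1)) := hL.imono (hL.mono (Nat.zero_le _))
      have h9 := hL.η0
      linarith
    | succ m =>
      have h4 := hL.rise 0 m (w (m + 1)) (Nat.zero_le _) (hL.mono (Nat.le_succ m)) le_rfl
        (fun k' _ q2 => hown k' (by omega)) hlt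
      linarith
  · push Not at hbig
    have hlt : ∀ j, w 0 ≤ j → j < i → D j < 1 / 5 := by
      intro j hj1 hj2
      by_cases hjn : w n ≤ j
      · by_contra hcon
        exact hmin j ⟨hjn, by omega, by linarith [not_lt.mp hcon]⟩ (show j < i from hj2)
      · have : ∃ q, q < n ∧ w q ≤ j ∧ j ≤ w (q + 1) := by
          by_contra hcon
          push Not at hcon
          have hall : ∀ q, q ≤ n → w q ≤ j := by
            intro q
            induction q with
            | zero => intro _; exact hj1
            | succ q ih =>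
              intro hq
              exact (hcon q (by omega) (ih (by omega))).le
          exact hjn (hall n le_rfl)
        obtain ⟨q, q1, q2, q3⟩ := this
        exact hH.own (hown q (by omega)) q2 q3
    have h4 := hL.rise 0 n i (Nat.zero_le _) g1 g2 (fun k' _ q2 => hown k' q2) hlt
    have h7 : I i ≤ I (w (p + 1)) := hL.imono (g2.trans (hL.mono (by omega)))
    linarith

open Classical in
/-- number of flips (changes of state at the boundaries `w 1 .. w p`) -/
noncomputable def flips (Z : ℕ → Prop) (p : ℕ) : ℝ :=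
  ∑ j ∈ range p, if (Z j ∧ ¬ Z (j + 1)) ∨ (¬ Z j ∧ Z (j + 1)) then (1 : ℝ) else 0

open Classical in
theorem flips_le (Z : ℕ → Prop) (p : ℕ) :
    flips Z p ≤ 2 * cmp Z p + (if Z p then (1 : ℝ) else 0) - (if Z 0 then (1 : ℝ) else 0) := by
  induction p with
  | zero => simp [flips, cmp]
  | succ p ih =>
    have h1 : flips Z (p + 1) = flips Z p +
        if (Z p ∧ ¬ Z (p + 1)) ∨ (¬ Z p ∧ Z (p + 1)) then (1 : ℝ) else 0 := by
      unfold flips
      rw [sum_range_succ]
    have h2 := cmp_succ Z p
    rw [h1, h2]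
    by_cases a : Z p <;> by_cases b : Z (p + 1) <;> simp [a, b] at ih ⊢ <;> linarith

open Classical in
/-- flips are paid by the initial mass and the inflow -/
theorem flips_le_I (hL : LabI D I w Z η) (hH : Hyst D w Z) (p : ℕ) :
    flips Z p ≤ 40 * D (w 0) + 80 * (I (w (p + 1)) - I (w 0)) := by
  have h1 := flips_le Z p
  have h2 := runs_card_I hL hH p
  have hI : I (w 0) ≤ I (w (p + 1)) := hL.imono (hL.mono (Nat.zero_le _))
  have hD := hL.nonneg (w 0)
  by_cases hz : ∃ k, k ≤ p ∧ Z k
  · obtain ⟨k, hk, hZ⟩ := hz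
    have h3 := ever_zero_I hL hH hk hZ
    have h4 : (0 : ℝ) ≤ if Z p then (1 : ℝ) else 0 := by split_ifs <;> norm_num
    have h5 : (0 : ℝ) ≤ if Z 0 then (1 : ℝ) else 0 := by split_ifs <;> norm_num
    linarith
  · push Not at hz
    have h3 : flips Z p = 0 := by
      unfold flips
      refine sum_eq_zero fun j hj => ?_
      rw [mem_range] at hj
      rw [if_neg]
      rintro (⟨h, _⟩ | ⟨_, h⟩)
      · exact hz j hj.le h
      · exact hz (j + 1) (by omega) h
    rw [h3]
    linarith

open Classical in
/-- `Σ_runs q(end of run)` of a label: zero if the label is never ZERO -/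
theorem runs_sum_I' (hL : LabI D I w Z η) (hH : Hyst D w Z) (p : ℕ) :
    (∑ j ∈ range p, if Z j ∧ ¬ Z (j + 1) then 1 - D (w (j + 1)) else 0)
      + (if Z p then 1 - D (w (p + 1)) else 0)
      ≤ 5 / 4 * (1 - D (w (p + 1))) * min 1 (20 * D (w 0) + 20 * (I (w (p + 1)) - I (w 0)))
        + 20 * (I (w (p + 1)) - I (w 0)) := by
  have hI : I (w 0) ≤ I (w (p + 1)) := hL.imono (hL.mono (Nat.zero_le _))
  have hD := hL.nonneg (w 0)
  have hq : 0 ≤ 1 - D (w (p + 1)) := by linarith [hL.le_one (w (p + 1))]
  by_cases hz : ∃ k, k ≤ p ∧ Z k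
  · obtain ⟨k, hk, hZ⟩ := hz
    have h3 := ever_zero_I hL hH hk hZ
    rw [min_eq_left h3, mul_one]
    exact runs_sum_I hL hH p
  · push Not at hz
    have h3 : (∑ j ∈ range p, if Z j ∧ ¬ Z (j + 1) then 1 - D (w (j + 1)) else 0) = 0 := by
      refine sum_eq_zero fun j hj => ?_
      rw [mem_range] at hj
      rw [if_neg]
      rintro ⟨h, _⟩
      exact hz j hj.le h
    rw [h3, if_neg (hz p le_rfl)]
    have h4 : 0 ≤ min 1 (20 * D (w 0) + 20 * (I (w (p + 1)) - I (w 0))) :=
      le_min zero_le_one (by linarith)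
    have := mul_nonneg hq h4
    linarith

end Vale.Agent.P262.H633
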